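import Vale.Agent.P155.K.Final
import Vale.Agent.P155.NT.Faces
import Vale.Agent.P155.T905.Sign

/-!
# P155, NT, visit bound: the height is at most `K log² R`, up to a negligible weight
-/

namespace Vale.Agent.P155.V743

open Finset Skel J T905

theorem h_out {T : Temp} {ω : Conf} (hω : ω ∈ DD T.V) {x : Pt} (hx : x ∉ T.faceSet) :
    h ω x = 0 := by
  classical
  rw [HT.h_eq_sum hω]
  refine Finset.sum_eq_zero fun A hA => ?_
  have hA' := (HT.mem_LF hω).1 hA
  rw [HT.hL_eq_sign hω hA', if_neg (NT.out_not_surr hω hA' hx)]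

/-- the height is at most `K log² R`, up to a negligible weight -/
theorem hgt_weight (p : ℝ) (hp : 0 < p) : ∃ K : ℝ, 0 ≤ K ∧ ∃ C : ℝ, 0 ≤ C ∧ ∀ (R : ℕ) (T : Temp),
    1 ≤ R → Fits T R → ∃ B : Conf → ℝ, (∀ ω, 0 ≤ B ω) ∧ Ex T.V B ≤ C * (R : ℝ) ^ (-p) ∧
    ∀ ω ∈ DD T.V, ∀ x, |(h ω x : ℝ)| ≤ K * Real.log (R + 2) ^ 2 + B ω := by
  obtain ⟨c, hc, C, hC⟩ := K.c_height'
  refine ⟨(p + 3) / c, by positivity, 126 * |C|, by positivity, ?_⟩
  intro R T hR hfit
  have hRr : (1 : ℝ) ≤ R := by exact_mod_cast hR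
  have hR0 : (0 : ℝ) < R := by linarith
  obtain ⟨l, hl⟩ : ∃ l, l = Real.log ((R : ℝ) + 2) := ⟨_, rfl⟩
  have hl0 : 0 < l := by rw [hl]; exact Real.log_pos (by linarith)
  have hexp : Real.exp (-((p + 3) * l)) = ((R : ℝ) + 2) ^ (-(p + 3)) := by
    rw [Real.rpow_def_of_pos (by linarith), ← hl]
    congr 1
    ring
  have hexp0 := Real.exp_pos (-((p + 3) * l))
  refine ⟨fun ω => (2 * (R : ℝ) + 5) * (2 * Real.exp (-((p + 3) * l))) *
    ∑ x ∈ box (0, 0) R, Real.cosh (c / l * (h ω x : ℝ)), fun ω => ?_, ?_, ?_⟩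
  · have : 0 ≤ ∑ x ∈ box (0, 0) R, Real.cosh (c / l * (h ω x : ℝ)) :=
      Finset.sum_nonneg fun x _ => (Real.cosh_pos _).le
    positivity
  · rw [H12.Ex_mul, H12.Ex_sum]
    have h1 : ∑ x ∈ box (0, 0) R, Ex T.V (fun ω => Real.cosh (c / l * (h ω x : ℝ))) ≤
        (3 * (R : ℝ)) ^ 2 * |C| := by
      have h2 : ∀ x ∈ box (0, 0) R, Ex T.V (fun ω => Real.cosh (c / l * (h ω x : ℝ))) ≤ |C| := by
        intro x _
        have := hC R T hfit x
        rw [← hl] at this
        exact this.trans (le_abs_self C)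
      refine (Finset.sum_le_sum h2).trans ?_
      rw [Finset.sum_const, nsmul_eq_mul, card_box']
      refine mul_le_mul_of_nonneg_right ?_ (abs_nonneg _)
      exact pow_le_pow_left₀ (by positivity) (by linarith) 2
    have h3 : Real.exp (-((p + 3) * l)) ≤ (R : ℝ) ^ (-(p + 3)) := by
      rw [hexp]
      exact Real.rpow_le_rpow_of_nonpos hR0 (by linarith) (by linarith)
    calc (2 * (R : ℝ) + 5) * (2 * Real.exp (-((p + 3) * l))) *
        ∑ x ∈ box (0, 0) R, Ex T.V (fun ω => Real.cosh (c / l * (h ω x : ℝ)))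
        ≤ (7 * (R : ℝ)) * (2 * (R : ℝ) ^ (-(p + 3))) * ((3 * (R : ℝ)) ^ 2 * |C|) := by
          refine mul_le_mul ?_ h1 (Finset.sum_nonneg fun x _ => ?_) (by positivity)
          · refine mul_le_mul (by linarith) (by linarith) (by positivity) (by positivity)
          · rw [Ex_eq_avg]
            exact avg_nonneg fun _ _ => (Real.cosh_pos _).le
      _ = 126 * |C| * ((R : ℝ) ^ (3 : ℕ) * (R : ℝ) ^ (-(p + 3))) := by ring
      _ = 126 * |C| * (R : ℝ) ^ (-p) := by
          rw [← Real.rpow_natCast, ← Real.rpow_add hR0]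
          congr 2
          push_cast
          ring
  · intro ω hω x
    rw [← hl]
    have hS0 : ∀ y, 0 ≤ Real.cosh (c / l * (h ω y : ℝ)) := fun y => (Real.cosh_pos _).le
    have hB0 : 0 ≤ (2 * (R : ℝ) + 5) * (2 * Real.exp (-((p + 3) * l))) *
        ∑ x ∈ box (0, 0) R, Real.cosh (c / l * (h ω x : ℝ)) := by
      have : 0 ≤ ∑ x ∈ box (0, 0) R, Real.cosh (c / l * (h ω x : ℝ)) :=
        Finset.sum_nonneg fun y _ => hS0 y
      positivity
    have hK0 : 0 ≤ (p + 3) / c * l ^ 2 := by positivity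
    by_cases hx : x ∈ T.faceSet
    · by_cases hle : |(h ω x : ℝ)| ≤ (p + 3) / c * l ^ 2
      · linarith
      · push Not at hle
        have h1 := abs_h_le hfit hω x
        have hxb : x ∈ box (0, 0) R := by
          have := hfit hx
          exact_mod_cast this
        have h2 : 1 ≤ 2 * Real.exp (-((p + 3) * l)) * Real.cosh (c / l * (h ω x : ℝ)) := by
          rw [← Real.cosh_abs, abs_mul, abs_of_pos (by positivity : 0 < c / l)]
          have h3 : (p + 3) * l ≤ c / l * |(h ω x : ℝ)| := by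
            calc (p + 3) * l = c / l * ((p + 3) / c * l ^ 2) := by field_simp
              _ ≤ _ := mul_le_mul_of_nonneg_left hle.le (by positivity)
          have h4 : Real.exp (c / l * |(h ω x : ℝ)|) ≤
              2 * Real.cosh (c / l * |(h ω x : ℝ)|) := by
            rw [Real.cosh_eq]
            have := Real.exp_pos (-(c / l * |(h ω x : ℝ)|))
            linarith
          calc (1 : ℝ) = Real.exp (-((p + 3) * l)) * Real.exp ((p + 3) * l) := by
                rw [← Real.exp_add, neg_add_cancel, Real.exp_zero]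
            _ ≤ Real.exp (-((p + 3) * l)) * (2 * Real.cosh (c / l * |(h ω x : ℝ)|)) :=
                mul_le_mul_of_nonneg_left ((Real.exp_le_exp.2 h3).trans h4) hexp0.le
            _ = _ := by ring
        have h5 : Real.cosh (c / l * (h ω x : ℝ)) ≤
            ∑ y ∈ box (0, 0) R, Real.cosh (c / l * (h ω y : ℝ)) :=
          Finset.single_le_sum (f := fun y => Real.cosh (c / l * (h ω y : ℝ)))
            (fun y _ => hS0 y) hxb
        have h6 : 2 * (R : ℝ) + 5 ≤ (2 * (R : ℝ) + 5) * (2 * Real.exp (-((p + 3) * l))) *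
            ∑ x ∈ box (0, 0) R, Real.cosh (c / l * (h ω x : ℝ)) := by
          calc 2 * (R : ℝ) + 5 = (2 * (R : ℝ) + 5) * 1 := (mul_one _).symm
            _ ≤ (2 * (R : ℝ) + 5) * (2 * Real.exp (-((p + 3) * l)) *
                Real.cosh (c / l * (h ω x : ℝ))) :=
                mul_le_mul_of_nonneg_left h2 (by positivity)
            _ = (2 * (R : ℝ) + 5) * (2 * Real.exp (-((p + 3) * l))) *
                Real.cosh (c / l * (h ω x : ℝ)) := by ring
            _ ≤ _ := mul_le_mul_of_nonneg_left h5 (by positivity)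
        linarith
    · rw [h_out hω hx]
      simp only [Int.cast_zero, abs_zero]
      linarith

/-- `|h(φ)|` -/
theorem abs_hf_le_of {ω : Conf} {φ : Pt → ℝ} {S : Finset Pt} {K M : ℝ} (hK : 0 ≤ K)
    (h0 : ∀ x, x ∉ S → φ x = 0) (hm : ∑ x ∈ S, |φ x| ≤ M) (hh : ∀ x, |(h ω x : ℝ)| ≤ K) :
    |hf ω φ| ≤ M * K := by
  rw [hf_eq_sum' h0]
  refine (Finset.abs_sum_le_sum_abs _ _).trans ?_
  calc ∑ x ∈ S, |φ x * (h ω x : ℝ)| ≤ ∑ x ∈ S, |φ x| * K := by
        refine Finset.sum_le_sum fun x _ => ?_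
        rw [abs_mul]
        exact mul_le_mul_of_nonneg_left (hh x) (abs_nonneg _)
    _ = (∑ x ∈ S, |φ x|) * K := by rw [Finset.sum_mul]
    _ ≤ M * K := mul_le_mul_of_nonneg_right hm hK

end Vale.Agent.P155.V743
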