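import Vale.Agent.P155.V743.Bil
import Vale.Agent.P155.V743.Hgt
import Vale.Agent.P155.E4.Main
import Vale.Agent.P155.H12.Tail

/-!
# P155, NT, visit bound: the bilinear conditional second moment
-/

namespace Vale.Agent.P155.V743

open Finset Skel J E E3 E4 Filter

/-- mass of a bump in a box of the partition -/
theorem bump_box {φ : Pt → ℝ} {p x : Pt} {n0 n : ℕ} {C0 : ℝ} (hC0 : 0 ≤ C0) (hn : 1 ≤ n)
    (hφ : IsBump p n0 (C0 / (n0 : ℝ) ^ 2) φ) :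
    ∑ y ∈ box x n, |φ y| ≤ if dn p x ≤ n0 + n then 9 * C0 * ((n : ℝ) / n0) ^ 2 else 0 := by
  have hn1r : (1 : ℝ) ≤ n := by exact_mod_cast hn
  split_ifs with hpx
  · calc ∑ y ∈ box x n, |φ y| ≤ ∑ _y ∈ box x n, C0 / (n0 : ℝ) ^ 2 :=
          Finset.sum_le_sum (fun y _ => IsBump.abs_le hφ y)
      _ = (2 * (n : ℝ) + 1) ^ 2 * (C0 / (n0 : ℝ) ^ 2) := by
          rw [Finset.sum_const, nsmul_eq_mul, card_box']
      _ ≤ (3 * (n : ℝ)) ^ 2 * (C0 / (n0 : ℝ) ^ 2) := by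
          apply mul_le_mul_of_nonneg_right _ (by positivity)
          exact pow_le_pow_left₀ (by positivity) (by linarith) 2
      _ = _ := by rw [div_pow]; ring
  · apply le_of_eq
    apply Finset.sum_eq_zero
    intro y hy
    rw [hφ.1 y, abs_zero]
    intro hy2
    have h4 := dn_le_iff.2 hy
    have h5 := dn_le_iff.2 hy2
    have h6 := dn_triangle p y x
    rw [dn_comm y x] at h6
    omega

/-- the pairing with the cut potential -/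
theorem pair_cut {O : Set Pt} {R s : ℕ} {φ u χ : Pt → ℝ} {p : Pt} {n0 : ℕ} {C0 Cd Cc γ : ℝ}
    (hn0 : 1 ≤ n0) (hC0 : 0 ≤ C0) (hCd : 0 ≤ Cd) (hγ : 0 < γ)
    (hφ : IsBump p n0 (C0 / (n0 : ℝ) ^ 2) φ)
    (hu : IsGreen O φ u) (hOR : O ⊆ (box (0, 0) R : Set Pt))
    (hdec : ∀ x, |u x| ≤ Cd * ((dF O x : ℝ) / n0) ^ γ) (hχ : IsCut O s Cc χ) :
    |pair (fun y => χ y * u y) φ - pair φ u| ≤ 9 * C0 * Cd * ((2 * s : ℝ) / n0) ^ γ := by
  have hu0 : ∀ y, y ∉ box (0, 0) R → u y = 0 := by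
    intro y hy
    exact hu.off y (fun h => hy (by exact_mod_cast hOR h))
  have hg0 : ∀ y, y ∉ box (0, 0) R → χ y * u y = 0 := by
    intro y hy
    rw [hu0 y hy, mul_zero]
  have hle : ∀ y, dF O y ≤ 2 * s → |u y| ≤ Cd * ((2 * s : ℝ) / n0) ^ γ := by
    intro y hy
    refine (hdec y).trans ?_
    apply mul_le_mul_of_nonneg_left _ hCd
    apply Real.rpow_le_rpow (by positivity) _ hγ.le
    apply div_le_div_of_nonneg_right _ (by positivity)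
    exact_mod_cast hy
  have e0 : pair φ u = ∑ y ∈ box (0, 0) R, u y * φ y := by
    unfold pair
    rw [← finsum_eq_box (g := fun y => u y) hu0]
    exact finsum_congr (fun y => by ring)
  have e1 : pair (fun y => χ y * u y) φ - pair φ u =
      -∑ y ∈ box (0, 0) R, φ y * ((1 - χ y) * u y) := by
    rw [e0]
    unfold pair
    rw [finsum_eq_box (g := fun y => χ y * u y) hg0, ← Finset.sum_sub_distrib,
      ← Finset.sum_neg_distrib]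
    refine Finset.sum_congr rfl (fun y _ => ?_)
    ring
  rw [e1, abs_neg]
  refine (Finset.abs_sum_le_sum_abs _ _).trans ?_
  have h4 : ∀ y ∈ box (0, 0) R, |φ y * ((1 - χ y) * u y)| ≤
      |φ y| * (Cd * ((2 * s : ℝ) / n0) ^ γ) := by
    intro y _
    rw [abs_mul]
    apply mul_le_mul_of_nonneg_left _ (abs_nonneg _)
    by_cases hy : 2 * s ≤ dF O y
    · rw [hχ.one y hy]
      simp
      positivity
    · rw [abs_mul]
      have h5 : |1 - χ y| ≤ 1 := by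
        rw [abs_le]; constructor <;> linarith [hχ.nonneg y, hχ.le_one y]
      calc |1 - χ y| * |u y| ≤ 1 * (Cd * ((2 * s : ℝ) / n0) ^ γ) :=
            mul_le_mul h5 (hle y (by omega)) (abs_nonneg _) (by norm_num)
        _ = _ := one_mul _
  refine (Finset.sum_le_sum h4).trans ?_
  rw [← Finset.sum_mul]
  calc (∑ y ∈ box (0, 0) R, |φ y|) * (Cd * ((2 * s : ℝ) / n0) ^ γ)
      ≤ 9 * C0 * (Cd * ((2 * s : ℝ) / n0) ^ γ) :=
        mul_le_mul_of_nonneg_right (bump_mass hn0 hC0 hφ _) (by positivity)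
    _ = _ := by ring

/-- the estimate on one atom, with explicit constants -/
theorem bil_atom (hI : E_incr) (hM : E_meas) {T : Temp} {R s J n0 : ℕ} {κ CE CW : ℝ}
    {φ u : Pt → ℝ} {O : Set Pt} {p : Pt} {X : Expl} {ω : Conf} {G : Pt → ℕ → Set Conf}
    (hX : IsExpl T.V X) (hω : ω ∈ DD T.V) (hR1 : 1 ≤ R) (hfit : Fits T R) (hO : O ⊆ T.faceSet)
    (hin : ∀ v : Pt, (∀ f : Pt, v.1 - 1 ≤ f.1 → f.1 ≤ v.1 → v.2 - 1 ≤ f.2 → f.2 ≤ v.2 → f ∈ O) →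
      v ∈ (X ω).1 ∧ v ∈ (X ω).2) (W : Whit O p n0 s J (tt κ) CW u) (hCE : 0 ≤ CE) (hCW : 0 ≤ CW)
    (hG : LocGood T κ CE R G (fun n => s ≤ 16 * n)) (hs : 64 ≤ s)
    (hpar : ∀ n : ℕ, s ≤ 16 * n → tt κ n ≤ n ∧ (n : ℝ) ^ (1 - 3 * κ) ≤ 2 * tt κ n)
    (hκ : 0 ≤ κ) (hκ1 : κ ≤ 1 / 240) (hn0 : 1 ≤ n0) (hsM : 33 * s ≤ capM n0 0)
    {C0 Cd γ : ℝ} (hC0 : 0 ≤ C0) (hCd : 0 ≤ Cd) (hγ : 0 < γ)
    (hφ : IsBump p n0 (C0 / (n0 : ℝ) ^ 2) φ) (hu : IsGreen O φ u)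
    (hdec : ∀ x, |u x| ≤ Cd * ((dF O x : ℝ) / n0) ^ γ) (hJR : (J : ℝ) ≤ 2 * R)
    {S1 S2 Kl : ℝ} (hKl : 0 ≤ Kl) {Bh : Conf → ℝ} (hBh0 : ∀ ω, 0 ≤ Bh ω)
    (hh : ∀ ω' ∈ DD T.V, ∀ x, |(h ω' x : ℝ)| ≤ Kl + Bh ω')
    (hS1 : (R : ℝ) ^ κ * (J * (16 * CW * (s : ℝ) ^ (-(1 / 2) : ℝ))) ≤ S1)
    (hS2 : (R : ℝ) ^ κ * (J * (72 * CW * C0 * (s : ℝ) ^ (-(1 / 40) : ℝ) +
      4 * CW * 0 * (s : ℝ) ^ (6 * κ))) ≤ S2) :
    |cEx T.V X (fun ω' => hf ω' (lap (fun y => G45.cutf O s y * u y)) * hf ω' φ) ω +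
        2 / Real.pi * pair φ u| ≤
      CE * S1 * (9 * C0 * Kl + 9 * C0 * cEx T.V X Bh ω) + CE * S2 +
      9 * C0 * Cd * ((2 * s : ℝ) / n0) ^ γ +
      800000 * (CW * C0) * (R : ℝ) ^ 6 * cEx T.V X (badW R G) ω := by
  have hRr : (1 : ℝ) ≤ R := by exact_mod_cast hR1
  have hR0 : (0 : ℝ) < R := by linarith
  have hfin : T.faceSet.Finite := fs_of_sub_box hfit
  have hOfin : O.Finite := hfin.subset hO
  have hOne : ∃ q, q ∉ O := hOfin.infinite_compl.nonempty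
  have hn0r : (1 : ℝ) ≤ n0 := by exact_mod_cast hn0
  have hdF : ∀ x, dF O x ≤ R + 1 := fun x =>
    (dF_mono hO hfin x).trans (dF_le_of_fits hfit x)
  have F := W.fam hs (fun n hn => (hpar n hn).1) hdF
  have hp2 : ∀ n : ℕ, s ≤ 16 * n → (n : ℝ) ^ (1 - 3 * κ) ≤ 2 * tt κ n := fun n hn => (hpar n hn).2
  obtain ⟨BB, hBB⟩ : ∃ b, b = cEx T.V X (badW R G) ω := ⟨_, rfl⟩
  have hBB0 : 0 ≤ BB := by rw [hBB]; exact cEx_nonneg (fun _ _ => badW_nonneg _ _ _)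
  have hSH0 : 0 ≤ ∑ q ∈ W.I, W.H q.1 q.2 := Finset.sum_nonneg (fun q hq => F.H0 q hq)
  have hSHle : ∑ q ∈ W.I, W.H q.1 q.2 ≤ 8 * CW * (R : ℝ) ^ 2 := by
    refine (sum_Hc W hCW hs hκ1 hp2 hdF).trans ?_
    calc (J : ℝ) * (4 * CW * R) ≤ (2 * R) * (4 * CW * R) := by gcongr
      _ = _ := by ring
  have hmass : ∀ q ∈ W.I, ∑ y ∈ box (W.x q.1 q.2) (nn s q.1), |φ y| ≤
      (if dn p (W.x q.1 q.2) ≤ n0 + nn s q.1 then 9 * C0 * ((nn s q.1 : ℝ) / n0) ^ 2 else 0) +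
      (if 3 * nn s q.1 ≤ s then (0 : ℝ) else 0) := by
    intro q hq
    have h2 := (nn_ge hs q.1).1
    refine (bump_box hC0 (by omega) hφ).trans (le_of_eq ?_)
    split_ifs <;> simp
  have hsup : ∀ y, |φ y| ≤ C0 := by
    intro y
    refine (IsBump.abs_le hφ y).trans ?_
    rw [div_le_iff₀ (by positivity)]
    have : (1 : ℝ) ≤ (n0 : ℝ) ^ 2 := one_le_pow₀ hn0r
    nlinarith
  have hφ0 : ∀ y, y ∉ box p n0 → φ y = 0 := hφ.1
  have hφm : ∑ y ∈ box p n0, |φ y| ≤ 9 * C0 := bump_mass hn0 hC0 hφ _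
  have hcrude : ∀ ω' ∈ DD T.V, |hf ω' φ| ≤ 9 * C0 * (7 * R) := by
    intro ω' h'
    refine abs_hf_le_of (by positivity) hφ0 hφm (fun x => ?_)
    have := abs_h_le hfit h' x
    linarith
  have hbil := bil_moment hI hM hX hω hR1 hfit hO hin F hCE hG (f := φ)
    (Kf := 9 * C0 * (7 * R)) (Ff := C0) (by positivity) hC0 hmass hcrude hsup
  have hA10 : 0 ≤ ∑ q ∈ W.I, W.H q.1 q.2 * (nn s q.1 : ℝ) ^ (-1 + κ) :=
    Finset.sum_nonneg (fun q hq => mul_nonneg (F.H0 q hq) (by positivity))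
  have hA1le : (R : ℝ) ^ κ * (∑ q ∈ W.I, W.H q.1 q.2 * (nn s q.1 : ℝ) ^ (-1 + κ)) ≤ S1 := by
    refine le_trans ?_ hS1
    exact mul_le_mul_of_nonneg_left (sum_A W hCW hs hκ1 hp2) (by positivity)
  have hS10 : 0 ≤ S1 := le_trans (by positivity) hA1le
  have hB1 := sum_B W hCW hs hκ hκ1 hp2 hn0 hsM hC0 (le_refl (0 : ℝ))
  have hB1le := (mul_le_mul_of_nonneg_left hB1 (by positivity : 0 ≤ (R : ℝ) ^ κ)).trans hS2
  -- the expectation of `|h(φ)|`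
  have hE1 : cEx T.V X (fun ω' => |hf ω' φ|) ω ≤ 9 * C0 * Kl + 9 * C0 * cEx T.V X Bh ω := by
    have h1 : cEx T.V X (fun ω' => |hf ω' φ|) ω ≤
        cEx T.V X (fun ω' => 9 * C0 * Kl + 9 * C0 * Bh ω') ω := by
      apply cEx_mono
      intro ω' h'
      have hD := atom_sub h'
      have h2 := abs_hf_le_of (ω := ω') (K := Kl + Bh ω')
        (by have := hBh0 ω'; positivity) hφ0 hφm (fun x => hh ω' hD x)
      refine h2.trans (le_of_eq ?_)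
      ring
    refine h1.trans (le_of_eq ?_)
    rw [cEx_add, cEx_const hω, H12.cEx_mul]
  have hE10 : 0 ≤ cEx T.V X (fun ω' => |hf ω' φ|) ω := cEx_nonneg (fun _ _ => abs_nonneg _)
  have t1 : CE * (R : ℝ) ^ κ * (∑ q ∈ W.I, W.H q.1 q.2 * (nn s q.1 : ℝ) ^ (-1 + κ)) *
      cEx T.V X (fun ω' => |hf ω' φ|) ω ≤
      CE * S1 * (9 * C0 * Kl + 9 * C0 * cEx T.V X Bh ω) := by
    have h1 : CE * (R : ℝ) ^ κ * (∑ q ∈ W.I, W.H q.1 q.2 * (nn s q.1 : ℝ) ^ (-1 + κ)) ≤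
        CE * S1 := by
      rw [mul_assoc]
      exact mul_le_mul_of_nonneg_left hA1le hCE
    exact mul_le_mul h1 hE1 hE10 (by positivity)
  have t2 : CE * (R : ℝ) ^ κ * (∑ q ∈ W.I, W.H q.1 q.2 * (nn s q.1 : ℝ) ^ (-(1 / 20) : ℝ) *
      ((if dn p (W.x q.1 q.2) ≤ n0 + nn s q.1 then 9 * C0 * ((nn s q.1 : ℝ) / n0) ^ 2 else 0) +
        (if 3 * nn s q.1 ≤ s then (0 : ℝ) else 0))) ≤ CE * S2 := by
    rw [mul_assoc]
    exact mul_le_mul_of_nonneg_left hB1le hCE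
  have t3 : (1400 * (R : ℝ) ^ 3 * (9 * C0 * (7 * R)) + 9 * (R : ℝ) ^ 2 * C0) *
      (∑ q ∈ W.I, W.H q.1 q.2) * BB ≤ 800000 * (CW * C0) * (R : ℝ) ^ 6 * BB := by
    apply mul_le_mul_of_nonneg_right _ hBB0
    have h1 : 9 * (R : ℝ) ^ 2 * C0 ≤ 9 * (R : ℝ) ^ 4 * C0 := by
      apply mul_le_mul_of_nonneg_right _ hC0
      apply mul_le_mul_of_nonneg_left _ (by norm_num)
      exact pow_le_pow_right₀ hRr (by norm_num)
    calc (1400 * (R : ℝ) ^ 3 * (9 * C0 * (7 * R)) + 9 * (R : ℝ) ^ 2 * C0) *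
          (∑ q ∈ W.I, W.H q.1 q.2)
        ≤ (1400 * (R : ℝ) ^ 3 * (9 * C0 * (7 * R)) + 9 * (R : ℝ) ^ 4 * C0) *
          (8 * CW * (R : ℝ) ^ 2) := by gcongr
      _ = 705672 * (CW * C0) * (R : ℝ) ^ 6 := by ring
      _ ≤ _ := by
          apply mul_le_mul_of_nonneg_right _ (by positivity)
          have : 0 ≤ CW * C0 := by positivity
          linarith
  have t4 := pair_cut hn0 hC0 hCd hγ hφ hu (hO.trans hfit) hdec
    (isCut_cutf hOne (show 8 ≤ s by omega))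
  have t5 : |2 / Real.pi * pair φ u -
      2 / Real.pi * pair (fun y => G45.cutf O s y * u y) φ| ≤
      9 * C0 * Cd * ((2 * s : ℝ) / n0) ^ γ := by
    have hpi0 : (0 : ℝ) ≤ 2 / Real.pi := by positivity
    rw [← mul_sub, abs_mul, abs_of_nonneg hpi0, abs_sub_comm]
    calc 2 / Real.pi * |pair (fun y => G45.cutf O s y * u y) φ - pair φ u|
        ≤ 1 * (9 * C0 * Cd * ((2 * s : ℝ) / n0) ^ γ) :=
          mul_le_mul two_div_pi_le_one t4 (abs_nonneg _) (by norm_num)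
      _ = _ := one_mul _
  rw [← hBB] at hbil ⊢
  have e : cEx T.V X (fun ω' => hf ω' (lap (fun y => G45.cutf O s y * u y)) * hf ω' φ) ω +
      2 / Real.pi * pair φ u =
      (cEx T.V X (fun ω' => hf ω' (lap (fun y => G45.cutf O s y * u y)) * hf ω' φ) ω +
        2 / Real.pi * pair (fun y => G45.cutf O s y * u y) φ) +
      (2 / Real.pi * pair φ u -
        2 / Real.pi * pair (fun y => G45.cutf O s y * u y) φ) := by ring
  rw [e]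
  refine (abs_add_le _ _).trans ?_
  linarith [hbil]

/-- **Bilinear ME2**: the conditional expectation of `h(Δ(χu)) h(φ)`. -/
def BME : Prop := ∀ C0 p a a1 : ℝ, 0 ≤ C0 → 0 < p → 0 < a → 4 * a ≤ a1 → a1 ≤ 1 →
  ∃ c > (0 : ℝ), ∃ C : ℝ, 0 ≤ C ∧
  ∃ R0 : ℕ, 1 ≤ R0 ∧ ∀ R : ℕ, R0 ≤ R → ∀ T : Temp, Fits T R → ∃ B : Conf → ℝ,
  (∀ ω, 0 ≤ B ω) ∧ Ex T.V B ≤ C * (R : ℝ) ^ (-p) ∧
  ∀ X : Expl, IsExpl T.V X → ∀ ω ∈ DD T.V, ∀ (O : Set Pt) (p0 : Pt) (n0 : ℕ) (φ u : Pt → ℝ),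
  O ⊆ T.faceSet → CP O → p0 ∉ O →
  (∀ v : Pt, (∀ f : Pt, v.1 - 1 ≤ f.1 → f.1 ≤ v.1 → v.2 - 1 ≤ f.2 → f.2 ≤ v.2 → f ∈ O) →
      v ∈ (X ω).1 ∧ v ∈ (X ω).2) →
  (R : ℝ) ^ a1 ≤ n0 →
  IsBump p0 n0 (C0 / (n0 : ℝ) ^ 2) φ → IsGreen O φ u →
    |cEx T.V X (fun ω' => hf ω' (lap (fun y => G45.cutf O ⌈(R : ℝ) ^ a⌉₊ y * u y)) *
        hf ω' φ) ω + 2 / Real.pi * pair φ u| ≤ C * (R : ℝ) ^ (-c) + cEx T.V X B ω

theorem bme (hI : E_incr) (hM : E_meas) (hL : E_loc) : BME := by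
  classical
  intro C0 p a a1 hC0 hp ha haa ha1
  have ha4 : a ≤ 1 / 4 := by linarith
  obtain ⟨β, hβ, hSD, hOut⟩ := G1.decay
  obtain ⟨A, hA, hH⟩ := G45.harnack_one hβ (by norm_num) hSD
  obtain ⟨Dv, hDv, hV⟩ := G45.visits hβ (by norm_num) hSD
  obtain ⟨γ, hγ, hγle, hpot⟩ := pot_meso
  obtain ⟨Cd, hCd, hpot⟩ := hpot C0 hC0
  obtain ⟨CW, hCW, hW⟩ := exists_whit hA hH hDv hV hC0 hCd
  obtain ⟨δ, hδdef⟩ : ∃ δ : ℝ, δ = a * γ / 100 := ⟨_, rfl⟩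
  have hδ : 0 < δ := by rw [hδdef]; positivity
  have hδa : δ ≤ a / 100 := by
    rw [hδdef]
    apply div_le_div_of_nonneg_right _ (by norm_num)
    calc a * γ ≤ a * 1 := mul_le_mul_of_nonneg_left hγle ha.le
      _ = a := mul_one a
  have hδ1 : δ ≤ 1 / 400 := by linarith
  obtain ⟨κ, hκdef⟩ : ∃ κ : ℝ, κ = δ / 8 := ⟨_, rfl⟩
  have hκ : 0 < κ := by rw [hκdef]; positivity
  have hκ1 : κ ≤ 1 / 3200 := by rw [hκdef]; linarith
  obtain ⟨n1, CE, hCE, hE⟩ := loc_events hL (κ := κ) (a := a / 2) (p := p + 9) hκ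
    (by linarith) (by linarith)
  obtain ⟨R1, hR11, hpar⟩ := params hκ (show κ ≤ a / 40 by rw [hκdef]; linarith)
    (show κ ≤ 1 / 200 by linarith) (show a ≤ 1 / 2 by linarith)
  obtain ⟨Kh, hKh, Ch, hCh, hhgt⟩ := hgt_weight p hp
  obtain ⟨Al, hAl, hlog⟩ := H12.log_sq_le (ε := δ / 2) (by positivity)
  obtain ⟨KJ, hKJ⟩ : ∃ KJ : ℝ, KJ = 2 * (1 + 8 / δ) := ⟨_, rfl⟩
  have hKJ0 : 0 ≤ KJ := by rw [hKJ]; positivity
  obtain ⟨K1, hK1⟩ : ∃ K1 : ℝ, K1 = CE * (16 * KJ * CW) := ⟨_, rfl⟩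
  have hK10 : 0 ≤ K1 := by rw [hK1]; positivity
  obtain ⟨K2, hK2⟩ : ∃ K2 : ℝ, K2 = CE * (KJ * (72 * CW * C0 + 32 * CW * 0)) := ⟨_, rfl⟩
  have hK20 : 0 ≤ K2 := by rw [hK2]; positivity
  obtain ⟨KB, hKB⟩ : ∃ KB : ℝ, KB = 800000 * (CW * C0) := ⟨_, rfl⟩
  have hKB0 : 0 ≤ KB := by rw [hKB]; positivity
  obtain ⟨KH, hKH⟩ : ∃ KH : ℝ, KH = K1 * (9 * C0) := ⟨_, rfl⟩
  have hKH0 : 0 ≤ KH := by rw [hKH]; positivity
  obtain ⟨K3, hK3⟩ : ∃ K3 : ℝ, K3 = KH * Kh * Al + K2 + 9 * C0 * Cd * 4 := ⟨_, rfl⟩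
  have hK30 : 0 ≤ K3 := by rw [hK3]; positivity
  -- large `R`
  have ev2 : ∀ᶠ R : ℕ in atTop, (n1 : ℝ) ≤ (R : ℝ) ^ (a / 2) :=
    ((tendsto_rpow_atTop (by linarith)).comp tendsto_natCast_atTop_atTop).eventually_ge_atTop _
  have ev3 : ∀ᶠ R : ℕ in atTop, (9 ^ 10 : ℝ) ≤ (R : ℝ) ^ a :=
    ((tendsto_rpow_atTop ha).comp tendsto_natCast_atTop_atTop).eventually_ge_atTop _
  obtain ⟨R2, hR2⟩ := eventually_atTop.1 (ev2.and ev3)
  refine ⟨δ / 2, by positivity, 18 * KB * CE + KH * Ch + K3, by positivity, max R1 R2,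
    le_trans hR11 (le_max_left _ _), ?_⟩
  intro R hRR T hfit
  obtain ⟨g2, g3⟩ := hR2 R ((le_max_right _ _).trans hRR)
  have hR1 : 1 ≤ R := hR11.trans ((le_max_left _ _).trans hRR)
  have hRr : (1 : ℝ) ≤ R := by exact_mod_cast hR1
  have hR0 : (0 : ℝ) < R := by linarith
  obtain ⟨hs64, -, -, -, hpar⟩ := hpar R ((le_max_left _ _).trans hRR)
  obtain ⟨s, hs⟩ : ∃ s, s = ⌈(R : ℝ) ^ a⌉₊ := ⟨_, rfl⟩
  rw [← hs] at hs64 hpar ⊢
  obtain ⟨G, hGp, hGg⟩ := hE R T hR1 hfit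
  obtain ⟨Bh, hBh0, hBhE, hBh⟩ := hhgt R T hR1 hfit
  have hfin : T.faceSet.Finite := fs_of_sub_box hfit
  obtain ⟨hsl, hsu⟩ := s_bounds hRr ha.le hs
  have hLG : LocGood T κ CE R G (fun n => s ≤ 16 * n) := by
    intro x n hn
    apply hGg x n
    have := (hpar n hn).1
    refine ⟨?_, this⟩
    have : (n1 : ℝ) ≤ n := g2.trans this
    exact_mod_cast this
  refine ⟨fun ω => KB * (R : ℝ) ^ 6 * badW R G ω + KH * Bh ω, fun ω => ?_, ?_, ?_⟩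
  · have := badW_nonneg R G ω
    have := hBh0 ω
    positivity
  · rw [H12.Ex_add, H12.Ex_mul, H12.Ex_mul]
    have h2 := Ex_badW (R := R) hGp
    have e1 : (2 * (R : ℝ) + 1) ^ 2 ≤ (3 * R) ^ 2 :=
      pow_le_pow_left₀ (by positivity) (by linarith) 2
    have e2 : (R : ℝ) + 1 ≤ 2 * R := by linarith
    have e3 : KB * (R : ℝ) ^ 6 * Ex T.V (badW R G) ≤ 18 * KB * CE * (R : ℝ) ^ (-p) := by
      calc KB * (R : ℝ) ^ 6 * Ex T.V (badW R G)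
          ≤ KB * (R : ℝ) ^ 6 * ((3 * (R : ℝ)) ^ 2 * ((2 * R) * (CE * (R : ℝ) ^ (-(p + 9))))) := by
            apply mul_le_mul_of_nonneg_left _ (by positivity)
            refine h2.trans ?_
            gcongr
        _ = 18 * KB * CE * ((R : ℝ) ^ (9 : ℕ) * (R : ℝ) ^ (-(p + 9))) := by ring
        _ = 18 * KB * CE * (R : ℝ) ^ (-p) := by
            rw [← Real.rpow_natCast, ← Real.rpow_add hR0]
            congr 2; push_cast; ring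
    have e4 : KH * Ex T.V Bh ≤ KH * (Ch * (R : ℝ) ^ (-p)) :=
      mul_le_mul_of_nonneg_left hBhE hKH0
    have e5 : 0 ≤ K3 * (R : ℝ) ^ (-p) := by positivity
    have e6 : (18 * KB * CE + KH * Ch + K3) * (R : ℝ) ^ (-p) =
      18 * KB * CE * (R : ℝ) ^ (-p) + KH * (Ch * (R : ℝ) ^ (-p)) + K3 * (R : ℝ) ^ (-p) := by ring
    rw [e6]
    linarith
  · intro X hX ω hω O p0 n0 φ u hO hCP hp0 hin hn0 hφ hu
    have hOfin : O.Finite := hfin.subset hO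
    obtain ⟨hn9, hcap, h8s⟩ := scales_ok hRr ha haa hn0 hs g3
    have hn01 : 1 ≤ n0 := by omega
    have h2s : 2 * s ≤ capM n0 0 := by omega
    -- the partition
    have hφd : ∀ y, |φ y| ≤ dens C0 p0 n0 y := by
      intro y
      by_cases hy : y ∈ box p0 n0
      · exact (IsBump.abs_le hφ y).trans (le_dens hC0 hn01 (dn_le_iff.2 hy))
      · rw [hφ.1 y hy, abs_zero]
        exact dens_nonneg hC0 p0 n0 y
    obtain ⟨ub, hub, hub0, huub, hubCd, hubdec⟩ := hpot O p0 n0 φ u hOfin hCP hp0 hn01 hφd hu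
    have hdF : ∀ x, dF O x ≤ R + 1 := fun x =>
      (dF_mono hO hfin x).trans (dF_le_of_fits hfit x)
    obtain ⟨W⟩ := hW O p0 n0 s (nJ R) R (tt κ) φ u ub hOfin hCP
      (fun x hx => dn_le_iff.2 (hfit (hO hx))) hn9 hs64 h2s
      (fun n hn => ⟨(hpar n hn).2.1, (hpar n hn).2.2.1⟩)
      (fun z => (hdF z).trans ((nJ_pow R).trans (Nat.le_mul_of_pos_left _ (by omega))))
      hφ hu hub huub hubCd
    have hr2 := ratio (γ := γ) (c := 2) (δ := δ) hRr ha.le hs haa hn0 hγ hγle (by norm_num)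
      (by norm_num) (le_of_eq hδdef)
    have hJ : (nJ R : ℝ) ≤ KJ * (R : ℝ) ^ (δ / 8) := by rw [hKJ]; exact nJ_pow_le (R := R) hR1 hδ
    have hS1 := num1 (CW := CW) hRr ha.le hs hδ hδa hκdef hJ hKJ0 hCW
    have hS2 := num2 (CW := CW) (C0 := C0) (Mm := 0) (r := 0) hRr ha.le (by linarith) hs hδ
      (by linarith) hδa hκdef hJ hKJ0 hCW hC0 le_rfl (by positivity) le_rfl
    rw [mul_zero (0 : ℝ)] at hS2
    have hat := bil_atom hI hM hX hω hR1 hfit hO hin W hCE hCW hLG hs64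
      (fun n hn => ⟨by
        have := (hpar n hn).2.2.1
        unfold tt
        omega, (hpar n hn).2.2.2⟩) hκ.le (by linarith) hn01 hcap hC0 hCd hγ hφ hu
      (fun x => (huub x).trans (hubdec x)) (nJ_le_R hR1)
      (Kl := Kh * Real.log (R + 2) ^ 2) (by positivity) hBh0 hBh hS1 hS2
    have hBB0 : 0 ≤ cEx T.V X (badW R G) ω := cEx_nonneg (fun _ _ => badW_nonneg _ _ _)
    have hBh0' : 0 ≤ cEx T.V X Bh ω := cEx_nonneg (fun _ _ => hBh0 _)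
    have hcB : cEx T.V X (fun ω => KB * (R : ℝ) ^ 6 * badW R G ω + KH * Bh ω) ω =
        KB * (R : ℝ) ^ 6 * cEx T.V X (badW R G) ω + KH * cEx T.V X Bh ω := by
      rw [cEx_add, H12.cEx_mul, H12.cEx_mul]
    rw [hcB]
    have hRd : (R : ℝ) ^ (-δ) ≤ 1 := Real.rpow_le_one_of_one_le_of_nonpos hRr (by linarith)
    have hRd0 : 0 ≤ (R : ℝ) ^ (-δ) := by positivity
    have hRdd : (R : ℝ) ^ (-δ) ≤ (R : ℝ) ^ (-(δ / 2)) :=
      Real.rpow_le_rpow_of_exponent_le hRr (by linarith)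
    have h2 : Real.log ((R : ℝ) + 2) ^ 2 * (R : ℝ) ^ (-δ) ≤ Al * (R : ℝ) ^ (-(δ / 2)) := by
      have h3 := hlog R hR1
      have h4 : (R : ℝ) ^ (δ / 2) * (R : ℝ) ^ (-δ) = (R : ℝ) ^ (-(δ / 2)) := by
        rw [← Real.rpow_add hR0]; congr 1; ring
      calc Real.log ((R : ℝ) + 2) ^ 2 * (R : ℝ) ^ (-δ)
          ≤ (Al * (R : ℝ) ^ (δ / 2)) * (R : ℝ) ^ (-δ) := mul_le_mul_of_nonneg_right h3 hRd0
        _ = _ := by rw [mul_assoc, h4]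
    have u1 : CE * (16 * KJ * CW * (R : ℝ) ^ (-δ)) *
        (9 * C0 * (Kh * Real.log (R + 2) ^ 2) + 9 * C0 * cEx T.V X Bh ω) ≤
        KH * Kh * Al * (R : ℝ) ^ (-(δ / 2)) + KH * cEx T.V X Bh ω := by
      calc CE * (16 * KJ * CW * (R : ℝ) ^ (-δ)) *
        (9 * C0 * (Kh * Real.log (R + 2) ^ 2) + 9 * C0 * cEx T.V X Bh ω)
          = KH * Kh * (Real.log (R + 2) ^ 2 * (R : ℝ) ^ (-δ)) +
            KH * cEx T.V X Bh ω * (R : ℝ) ^ (-δ) := by rw [hKH, hK1]; ring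
        _ ≤ KH * Kh * (Al * (R : ℝ) ^ (-(δ / 2))) + KH * cEx T.V X Bh ω * 1 := by
            apply add_le_add
            · exact mul_le_mul_of_nonneg_left h2 (by positivity)
            · exact mul_le_mul_of_nonneg_left hRd (by positivity)
        _ = _ := by ring
    have u2 : CE * (KJ * (72 * CW * C0 + 32 * CW * 0) * (R : ℝ) ^ (-δ)) ≤
        K2 * (R : ℝ) ^ (-(δ / 2)) := by
      calc CE * (KJ * (72 * CW * C0 + 32 * CW * 0) * (R : ℝ) ^ (-δ)) = K2 * (R : ℝ) ^ (-δ) := by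
            rw [hK2]; ring
        _ ≤ _ := mul_le_mul_of_nonneg_left hRdd hK20
    have u3 : 9 * C0 * Cd * ((2 * (s : ℝ)) / n0) ^ γ ≤ 9 * C0 * Cd * 4 * (R : ℝ) ^ (-(δ / 2)) := by
      rw [mul_assoc (9 * C0 * Cd) 4]
      apply mul_le_mul_of_nonneg_left _ (by positivity)
      refine hr2.trans ?_
      apply mul_le_mul_of_nonneg_left _ (by norm_num)
      apply Real.rpow_le_rpow_of_exponent_le hRr
      linarith
    have h9 : (18 * KB * CE + KH * Ch + K3) * (R : ℝ) ^ (-(δ / 2)) =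
        (18 * KB * CE + KH * Ch) * (R : ℝ) ^ (-(δ / 2)) +
        (KH * Kh * Al * (R : ℝ) ^ (-(δ / 2)) + K2 * (R : ℝ) ^ (-(δ / 2)) +
          9 * C0 * Cd * 4 * (R : ℝ) ^ (-(δ / 2))) := by rw [hK3]; ring
    have h10 : 0 ≤ (18 * KB * CE + KH * Ch) * (R : ℝ) ^ (-(δ / 2)) := by positivity
    have h11 : 800000 * (CW * C0) * (R : ℝ) ^ 6 * cEx T.V X (badW R G) ω =
        KB * (R : ℝ) ^ 6 * cEx T.V X (badW R G) ω := by rw [hKB]
    rw [h9]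
    rw [h11] at hat
    linarith

/-- **`BME` holds.** -/
theorem bme_holds : BME :=
  bme E1.e_incr e_meas (e_loc_of_height (C276.c_height B1b.B_plane Dom.b_dom))

end Vale.Agent.P155.V743
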