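import Vale.Agent.P155.V743.Ind

/-!
# P155, iteration of nested CLE₄: `ITER` from the splice, existence and simple connectedness
-/

namespace Vale.Agent.P155.V743.Ind

open MeasureTheory ProbabilityTheory Set TopologicalSpace Filter Topology Uq Q1 Cap

/-- **ITER from the splice** -/
theorem iter_of (hS : SPL) (hE : EXI) (hH : NO801.Y.HSC) : NO801.Y.ITER := by
  intro Ω hΩ hb hne hsc Θ mΘ P G H hP hG
  obtain ⟨Q, hQp, hQ, hlaw, hQ1⟩ := NT730Y.iter_data hΩ hb hne hG
  have h1 : IsProbabilityMeasure (Q.map (fun s => s 1)) :=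
    Measure.isProbabilityMeasure_map NT730Y.meas_one.aemeasurable
  refine ⟨NonemptyCompacts ℂ × Fld Ω, _, Q.map (fun s => s 1), NT730Y.kcar Q,
    Prod.fst, h1, inferInstance, measurable_fst, ?_, ?_⟩
  · rw [hlaw]
  filter_upwards [hQ1] with p hp
  obtain ⟨hg, h1, hm, hsh⟩ := hp
  -- one good realisation
  obtain ⟨s0, hs0⟩ := hg.exists
  have hp1 : p.1 = (s0 1).1 := by rw [hs0.one]
  refine ⟨h1, ?_⟩
  have key := iter_pt hS hE hH hΩ hb hm (NT730Y.good_frontier hΩ hs0)
    (by rw [hp1]; exact hs0.conn 1) (by rw [hp1, ← hs0.zero.1]; exact (hs0.mono 0).1) hsh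
  exact key

end Vale.Agent.P155.V743.Ind
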