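import Vale.Agent.P155.V743.Cap
import Vale.Agent.P155.NT730Y.Mk3
import Vale.Agent.P155.NO801.YI
import Vale.Agent.P155.NT814Y.R1d

/-!
# P155, iteration of nested CLE₄: independence of the carpets in the holes, from the splice
-/

namespace Vale.Agent.P155.V743.Ind

open MeasureTheory ProbabilityTheory Set TopologicalSpace Filter Topology Uq Q1 Cap

/-- **SPL**: replacing the carpets in one hole by an independent copy. -/
def SPL : Prop := ∀ (O V : Set ℂ), IsOpen O → Bornology.IsBounded O → O.Nonempty →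
  IsConnected (frontier O) → (∃ z ∈ O, V = connectedComponentIn O z) →
  ∀ {Θ Θ' : Type} [MeasurableSpace Θ] [MeasurableSpace Θ'] (P : Measure Θ)
    [IsProbabilityMeasure P] (P' : Measure Θ') [IsProbabilityMeasure P']
    (G : ℕ → Θ → NonemptyCompacts ℂ) (H : ℕ → Θ → (ℂ → ℝ) → ℝ)
    (G' : ℕ → Θ' → NonemptyCompacts ℂ) (H' : ℕ → Θ' → (ℂ → ℝ) → ℝ),
    IsSignedCarpets P O G H → IsSignedCarpets P' V G' H' →
    IsSignedCarpets (P.prod P') O
      (fun k x => toNC (((G k x.1 : Set ℂ) \ V) ∪ G' k x.2))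
      (fun k x φ => H k x.1 (Vᶜ.indicator φ) + H' k x.2 (V.indicator φ))

/-- existence of signed carpets in simply connected domains -/
def EXI : Prop := ∀ V : Set ℂ, IsOpen V → Bornology.IsBounded V → V.Nonempty →
  SimplyConnectedSpace V → ∃ (Θ : Type) (_ : MeasurableSpace Θ) (P : Measure Θ)
    (G : ℕ → Θ → NonemptyCompacts ℂ) (H : ℕ → Θ → (ℂ → ℝ) → ℝ),
    IsProbabilityMeasure P ∧ IsSignedCarpets P V G H

abbrev SQ : Type := ℕ → NonemptyCompacts ℂ

/-- the part in `closure V` -/
noncomputable def cl (V : Set ℂ) (t : SQ) : SQ := fun k => toNC ((t k : Set ℂ) ∩ closure V)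

/-- the part off `V` -/
noncomputable def off (V : Set ℂ) (t : SQ) : SQ := fun k => toNC ((t k : Set ℂ) ∩ Vᶜ)

theorem measurable_cl (V : Set ℂ) : Measurable (cl V) :=
  measurable_capSeq isClosed_closure (fun k => k)

theorem measurable_off {V : Set ℂ} (hV : IsOpen V) : Measurable (off V) :=
  measurable_capSeq hV.isClosed_compl (fun k => k)

theorem rst_eq (V : Set ℂ) (s : SQ) : NO801.Y.rst V s = cl V (fun k => s (k + 1)) := by
  funext k
  unfold NO801.Y.rst cl toNC
  by_cases h : ((s (k + 1) : Set ℂ) ∩ closure V).Nonempty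
  · rw [dif_pos h, dif_pos ⟨(s (k + 1)).isCompact.inter_right isClosed_closure, h⟩]
  · rw [dif_neg h, dif_neg (fun h' => h h'.2)]

theorem measurable_rst (V : Set ℂ) : Measurable (NO801.Y.rst V) := by
  have e : NO801.Y.rst V = fun s => cl V (fun k => s (k + 1)) := funext fun s => rst_eq V s
  rw [e]
  exact (measurable_cl V).comp (measurable_pi_lambda _ fun k => measurable_pi_apply _)

/-! ## Geometry of a hole -/

section geo

variable {O V : Set ℂ}

theorem hole_open (hO : IsOpen O) (hV : ∃ z ∈ O, V = connectedComponentIn O z) : IsOpen V := by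
  obtain ⟨z, _, rfl⟩ := hV
  exact hO.connectedComponentIn

theorem hole_sub (hV : ∃ z ∈ O, V = connectedComponentIn O z) : V ⊆ O := by
  obtain ⟨z, _, rfl⟩ := hV
  exact connectedComponentIn_subset _ _

theorem hole_ne (hV : ∃ z ∈ O, V = connectedComponentIn O z) : V.Nonempty := by
  obtain ⟨z, hz, rfl⟩ := hV
  exact ⟨z, mem_connectedComponentIn hz⟩

theorem hole_frontier (hO : IsOpen O) (hV : ∃ z ∈ O, V = connectedComponentIn O z) :
    frontier V ⊆ frontier O := by
  obtain ⟨z, hz, rfl⟩ := hV
  have h1 : IsOpen (O \ connectedComponentIn O z) := NT814Y.isOpen_diff_comp hO z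
  intro x hx
  rw [hO.connectedComponentIn.frontier_eq] at hx
  rw [hO.frontier_eq]
  refine ⟨closure_mono (connectedComponentIn_subset _ _) hx.1, fun hxO => ?_⟩
  have h2 : Disjoint (O \ connectedComponentIn O z) (closure (connectedComponentIn O z)) :=
    (disjoint_sdiff_left).closure_right h1
  exact (Set.disjoint_left.1 h2) ⟨hxO, hx.2⟩ hx.1

theorem hole_disj {V' : Set ℂ} (hV : ∃ z ∈ O, V = connectedComponentIn O z)
    (hV' : ∃ z ∈ O, V' = connectedComponentIn O z) (hne : V ≠ V') : Disjoint V V' := by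
  obtain ⟨z, hz, rfl⟩ := hV
  obtain ⟨w, hw, rfl⟩ := hV'
  rw [Set.disjoint_left]
  intro x hx hx'
  exact hne ((connectedComponentIn_eq hx).trans (connectedComponentIn_eq hx').symm)

end geo

/-! ## The splice on the level of laws -/

/-- the deterministic properties of one realisation -/
def Nice (O : Set ℂ) (t : SQ) : Prop :=
  ∀ k, frontier O ⊆ (t k : Set ℂ) ∧ (t k : Set ℂ) ⊆ closure O

theorem nice_ae {O : Set ℂ} {Θ : Type} [MeasurableSpace Θ] {P : Measure Θ}
    {G : ℕ → Θ → NonemptyCompacts ℂ} {H : ℕ → Θ → (ℂ → ℝ) → ℝ} (h : IsSignedCarpets P O G H) :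
    ∀ᵐ x ∂P, Nice O (fun k => G k x) := by
  filter_upwards [h.zero, h.mono] with x h0 hm k
  refine ⟨?_, (hm k).2⟩
  induction k with
  | zero => exact h0.1.ge
  | succ k ih => exact ih.trans (hm k).1

theorem nice_meas {O : Set ℂ} (_hO : IsOpen O) : MeasurableSet {t : SQ | Nice O t} := by
  have e : {t : SQ | Nice O t} = ⋂ k : ℕ, {t : SQ | frontier O ⊆ (t k : Set ℂ)} ∩
      {t : SQ | (t k : Set ℂ) ⊆ closure O} := by
    ext t
    simp only [Nice, mem_ofPred_eq, mem_iInter, mem_inter_iff]
  rw [e]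
  refine MeasurableSet.iInter fun k => MeasurableSet.inter ?_ ?_
  · have h1 : IsClosed {K : NonemptyCompacts ℂ | frontier O ⊆ (K : Set ℂ)} := by
      have e2 : {K : NonemptyCompacts ℂ | frontier O ⊆ (K : Set ℂ)} =
          ⋂ x ∈ frontier O, {K : NonemptyCompacts ℂ | ((K : Set ℂ) ∩ {x}).Nonempty} := by
        ext K
        simp only [mem_ofPred_eq, mem_iInter, inter_singleton_nonempty]
        rfl
      rw [e2]
      exact isClosed_biInter fun x _ => isClosed_meets isClosed_singleton
    exact h1.measurableSet.preimage (measurable_pi_apply k)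
  · exact (NonemptyCompacts.isClosed_subsets_of_isClosed isClosed_closure).measurableSet.preimage
      (measurable_pi_apply k)

section splice

variable {O V : Set ℂ}

theorem splice_set {t t' : SQ} (hV : IsOpen V) (k : ℕ) :
    (toNC (((t k : Set ℂ) \ V) ∪ t' k) : Set ℂ) = ((t k : Set ℂ) \ V) ∪ t' k := by
  apply coe_toNC
  · exact ((t k).isCompact.diff hV).union (t' k).isCompact
  · exact (t' k).nonempty.mono subset_union_right

theorem splice_cl {t t' : SQ} (hV : IsOpen V) (ht' : Nice V t') :
    cl V (fun k => toNC (((t k : Set ℂ) \ V) ∪ t' k)) = t' := by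
  funext k
  unfold cl
  rw [splice_set hV k]
  have e : (((t k : Set ℂ) \ V) ∪ t' k) ∩ closure V = t' k := by
    apply Subset.antisymm
    · rintro x ⟨h1 | h1, h2⟩
      · apply (ht' k).1
        rw [hV.frontier_eq]
        exact ⟨h2, h1.2⟩
      · exact h1
    · intro x hx
      exact ⟨Or.inr hx, (ht' k).2 hx⟩
  rw [e]
  exact toNC_coe _

theorem splice_off {t t' : SQ} (hV : IsOpen V) (hfr : frontier V ⊆ frontier O)
    (ht : Nice O t) (ht' : Nice V t') :
    off V (fun k => toNC (((t k : Set ℂ) \ V) ∪ t' k)) = off V t := by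
  funext k
  unfold off
  rw [splice_set hV k]
  congr 1
  ext x
  simp only [mem_inter_iff, mem_union, Set.mem_sdiff, mem_compl_iff]
  constructor
  · rintro ⟨h1 | h1, h2⟩
    · exact ⟨h1.1, h2⟩
    · refine ⟨?_, h2⟩
      apply (ht k).1
      apply hfr
      rw [hV.frontier_eq]
      exact ⟨(ht' k).2 h1, h2⟩
  · rintro ⟨h1, h2⟩
    exact ⟨Or.inl ⟨h1, h2⟩, h2⟩

/-- **the joint law of the parts off `V` and in `V`** -/
theorem pair (hS : SPL) (hO : IsOpen O) (hb : Bornology.IsBounded O) (hne : O.Nonempty)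
    (hc : IsConnected (frontier O)) (hV : ∃ z ∈ O, V = connectedComponentIn O z)
    {Θ Θ' : Type} [MeasurableSpace Θ] [MeasurableSpace Θ'] {P : Measure Θ}
    [IsProbabilityMeasure P] {P' : Measure Θ'} [IsProbabilityMeasure P']
    {G : ℕ → Θ → NonemptyCompacts ℂ} {H : ℕ → Θ → (ℂ → ℝ) → ℝ}
    {G' : ℕ → Θ' → NonemptyCompacts ℂ} {H' : ℕ → Θ' → (ℂ → ℝ) → ℝ}
    (h : IsSignedCarpets P O G H) (h' : IsSignedCarpets P' V G' H') :
    (P.map (fun x k => G k x)).map (fun t => (off V t, cl V t)) =
      ((P.map (fun x k => G k x)).map (off V)).prod (P'.map (fun x k => G' k x)) := by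
  have hVo := hole_open hO hV
  have hsp := hS O V hO hb hne hc hV P P' G H G' H' h h'
  have hm := NT730Y.meas_seq h
  have hm' := NT730Y.meas_seq h'
  have hms := NT730Y.meas_seq hsp
  have hmo := measurable_off hVo
  have hf : Measurable (fun t : SQ => (off V t, cl V t)) := hmo.prodMk (measurable_cl V)
  have hlaw := NT730Y.uniq_law hO hb hne h hsp
  have e1 : (P.map (fun x k => G k x)).map (fun t => (off V t, cl V t)) =
      (P.prod P').map (fun x => (off V (fun k => G k x.1), fun k => G' k x.2)) := by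
    rw [hlaw, Measure.map_map hf hms]
    apply Measure.map_congr
    have a1 : ∀ᵐ x ∂(P.prod P'), Nice O (fun k => G k x.1) :=
      Measure.quasiMeasurePreserving_fst.ae (nice_ae h)
    have a2 : ∀ᵐ x ∂(P.prod P'), Nice V (fun k => G' k x.2) :=
      Measure.quasiMeasurePreserving_snd.ae (nice_ae h')
    filter_upwards [a1, a2] with x h1 h2
    simp only [Function.comp_apply]
    apply Prod.ext
    · exact splice_off hVo (hole_frontier hO hV) h1 h2
    · exact splice_cl hVo h2
  rw [e1, Measure.map_map hmo hm, Measure.map_prod_map _ _ (hmo.comp hm) hm']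
  rfl

end splice

/-- the law of the part in one hole -/
theorem law_cl {V : Set ℂ} {L L' : Measure SQ} [IsProbabilityMeasure L] [IsProbabilityMeasure L']
    (hV : IsOpen V) (hp : L.map (fun t => (off V t, cl V t)) = (L.map (off V)).prod L') :
    L.map (cl V) = L' := by
  have hmo := measurable_off hV
  have hf : Measurable (fun t : SQ => (off V t, cl V t)) := hmo.prodMk (measurable_cl V)
  have := Measure.isProbabilityMeasure_map (μ := L) hmo.aemeasurable
  have h1 : (L.map (fun t => (off V t, cl V t))).map Prod.snd = L.map (cl V) := by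
    rw [Measure.map_map measurable_snd hf]
    rfl
  rw [← h1, hp]
  have h2 := Measure.map_snd_prod (μ := L.map (off V)) (ν := L')
  rw [h2]
  simp

/-- `cl V'` is a function of the part off `V` -/
theorem cl_off {O V V' : Set ℂ} {t : SQ} (ht : Nice O t) (hO : (frontier O).Nonempty)
    (hVO : V ⊆ O) (hoO : IsOpen O) (hV : IsOpen V) (hd : Disjoint V V') :
    cl V' (off V t) = cl V' t := by
  have hd2 : Disjoint V (closure V') := hd.closure_right hV
  funext k
  unfold cl
  congr 1
  have hne : ((t k : Set ℂ) ∩ Vᶜ).Nonempty := by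
    obtain ⟨x, hx⟩ := hO
    refine ⟨x, (ht k).1 hx, fun hxV => ?_⟩
    rw [hoO.frontier_eq] at hx
    exact hx.2 (hVO hxV)
  have e : (off V t k : Set ℂ) = (t k : Set ℂ) ∩ Vᶜ := by
    unfold off
    exact coe_toNC ((t k).isCompact.inter_right hV.isClosed_compl) hne
  rw [e]
  ext x
  simp only [mem_inter_iff, mem_compl_iff]
  constructor
  · rintro ⟨⟨h1, _⟩, h3⟩
    exact ⟨h1, h3⟩
  · rintro ⟨h1, h3⟩
    exact ⟨⟨h1, fun h4 => Set.disjoint_left.1 hd2 h4 h3⟩, h3⟩

/-- **independence of the parts in distinct holes** -/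
theorem indep {O : Set ℂ} (hO : IsOpen O) (hfr : (frontier O).Nonempty)
    {μ : Measure SQ} [IsProbabilityMeasure μ] {L : Measure SQ} [IsProbabilityMeasure L]
    (hL : μ.map (fun s k => s (k + 1)) = L) (hN : ∀ᵐ t ∂L, Nice O t)
    {m : ℕ} {V : Fin m → Set ℂ} (hinj : Function.Injective V)
    (hV : ∀ i, ∃ z ∈ O, V i = connectedComponentIn O z)
    (L' : Fin m → Measure SQ) (hL' : ∀ i, IsProbabilityMeasure (L' i))
    (hp : ∀ i, L.map (fun t => (off (V i) t, cl (V i) t)) = (L.map (off (V i))).prod (L' i)) :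
    iIndepFun (fun i s => NO801.Y.rst (V i) s) μ := by
  have hsh : Measurable (fun (s : SQ) (k : ℕ) => s (k + 1)) :=
    measurable_pi_lambda _ fun k => measurable_pi_apply _
  rw [iIndepFun_iff_measure_inter_preimage_eq_mul]
  intro S
  induction S using Finset.induction_on with
  | empty =>
    intro sets _
    simp
  | insert i S hi ih =>
    intro sets hsets
    have ih' := ih (sets := sets) (fun j hj => hsets j (Finset.mem_insert_of_mem hj))
    have hB : MeasurableSet (sets i) := hsets i (Finset.mem_insert_self i S)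
    have hVo : IsOpen (V i) := hole_open hO (hV i)
    have := hL' i
    set D : Set SQ := ⋂ j ∈ S, (cl (V j)) ⁻¹' (sets j) with hD
    have hDm : MeasurableSet D := by
      refine Finset.measurableSet_biInter S fun j hj => ?_
      exact measurable_cl (V j) (hsets j (Finset.mem_insert_of_mem hj))
    have e1 : ∀ j, (fun s => NO801.Y.rst (V j) s) ⁻¹' sets j =
        (fun (s : SQ) (k : ℕ) => s (k + 1)) ⁻¹' ((cl (V j)) ⁻¹' sets j) := by
      intro j
      ext s
      simp only [mem_preimage, rst_eq]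
    have e2 : (⋂ j ∈ S, (fun s => NO801.Y.rst (V j) s) ⁻¹' sets j) =
        (fun (s : SQ) (k : ℕ) => s (k + 1)) ⁻¹' D := by
      rw [hD, preimage_iInter₂]
      simp only [e1]
    rw [Finset.set_biInter_insert, Finset.prod_insert hi, ← ih', e1 i, e2, ← preimage_inter,
      ← Measure.map_apply hsh ((measurable_cl (V i) hB).inter hDm),
      ← Measure.map_apply hsh (measurable_cl (V i) hB), ← Measure.map_apply hsh hDm, hL]
    -- replace `D` by `off ⁻¹' D`
    have e3 : L ((cl (V i)) ⁻¹' sets i ∩ D) = L ((cl (V i)) ⁻¹' sets i ∩ (off (V i)) ⁻¹' D) := by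
      apply measure_congr
      filter_upwards [hN] with t ht
      apply propext
      have e4 : t ∈ D ↔ off (V i) t ∈ D := by
        rw [hD]
        simp only [mem_iInter, mem_preimage]
        refine forall₂_congr fun j hj => ?_
        rw [cl_off ht hfr (hole_sub (hV i)) hO hVo (hole_disj (hV i) (hV j) (fun h => hi (by
          rw [hinj h]; exact hj)))]
      exact and_congr_right fun _ => e4
    have e5 : L D = L ((off (V i)) ⁻¹' D) := by
      apply measure_congr
      filter_upwards [hN] with t ht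
      apply propext
      show t ∈ D ↔ off (V i) t ∈ D
      rw [hD]
      simp only [mem_iInter, mem_preimage]
      refine forall₂_congr fun j hj => ?_
      rw [cl_off ht hfr (hole_sub (hV i)) hO hVo (hole_disj (hV i) (hV j) (fun h => hi (by
        rw [hinj h]; exact hj)))]
    have hmo := measurable_off hVo
    have hf : Measurable (fun t : SQ => (off (V i) t, cl (V i) t)) :=
      hmo.prodMk (measurable_cl (V i))
    have h6 : L.map (fun t => (off (V i) t, cl (V i) t)) (D ×ˢ sets i) =
        ((L.map (off (V i))).prod (L' i)) (D ×ˢ sets i) := by rw [hp i]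
    rw [Measure.map_apply hf (hDm.prod hB), Measure.prod_prod, Measure.map_apply hmo hDm] at h6
    have h7 : (fun t : SQ => (off (V i) t, cl (V i) t)) ⁻¹' (D ×ˢ sets i) =
        (cl (V i)) ⁻¹' sets i ∩ (off (V i)) ⁻¹' D := by
      ext t
      simp only [mem_preimage, mem_prod, mem_inter_iff]
      exact and_comm
    rw [h7] at h6
    have h8 : L ((cl (V i)) ⁻¹' sets i) = L' i (sets i) := by
      rw [← law_cl hVo (hp i), Measure.map_apply (measurable_cl (V i)) hB]
    rw [e3, h6, h8, ← e5, mul_comm]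

/-- the conclusion of ITER for one law -/
theorem iter_pt (hS : SPL) (hE : EXI) (hH : NO801.Y.HSC) {Ω : Set ℂ} (hΩ : IsOpen Ω)
    (hb : Bornology.IsBounded Ω) {A : NonemptyCompacts ℂ} {μ : Measure SQ}
    [IsProbabilityMeasure μ] {Θ : Type} [MeasurableSpace Θ] {P : Measure Θ}
    [IsProbabilityMeasure P] {G : ℕ → Θ → NonemptyCompacts ℂ} {H : ℕ → Θ → (ℂ → ℝ) → ℝ}
    (hm : IsSignedCarpets P (Ω \ (A : Set ℂ)) G H) (hfr : frontier (Ω \ (A : Set ℂ)) = A)
    (hc : IsConnected (A : Set ℂ)) (hfΩ : frontier Ω ⊆ (A : Set ℂ))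
    (hsh : μ.map (fun s k => s (k + 1)) = P.map (fun x k => G k x)) :
    (∀ (m : ℕ) (V : Fin m → Set ℂ), Function.Injective V → (∀ i, IsHole Ω A (V i)) →
        (∀ i, AEMeasurable (fun s => NO801.Y.rst (V i) s) μ) ∧
        iIndepFun (fun i s => NO801.Y.rst (V i) s) μ) ∧
      ∀ V, IsHole Ω A V →
        ∀ (Θ' : Type) (_ : MeasurableSpace Θ') (P' : Measure Θ')
          (G' : ℕ → Θ' → NonemptyCompacts ℂ) (H' : ℕ → Θ' → (ℂ → ℝ) → ℝ),
          IsProbabilityMeasure P' → IsSignedCarpets P' V G' H' →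
          μ.map (NO801.Y.rst V) = P'.map (fun x k => G' k x) := by
  set O : Set ℂ := Ω \ (A : Set ℂ) with hOdef
  have hO : IsOpen O := hΩ.sdiff A.isCompact.isClosed
  have hbO : Bornology.IsBounded O := hb.subset sdiff_subset
  have hneO : O.Nonempty := by
    by_contra hcon
    rw [not_nonempty_iff_eq_empty] at hcon
    rw [hcon, frontier_empty] at hfr
    exact A.nonempty.ne_empty hfr.symm
  have hcO : IsConnected (frontier O) := by
    rw [hfr]
    exact hc
  have hV' : ∀ V, IsHole Ω (A : Set ℂ) V → ∃ z ∈ O, V = connectedComponentIn O z := by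
    rintro V ⟨z, hz, rfl⟩
    exact ⟨z, hz, rfl⟩
  have hmG := NT730Y.meas_seq hm
  have hLp : IsProbabilityMeasure (P.map (fun x k => G k x)) :=
    Measure.isProbabilityMeasure_map hmG.aemeasurable
  have hN : ∀ᵐ t ∂(P.map (fun x k => G k x)), Nice O t := by
    rw [ae_map_iff hmG.aemeasurable (nice_meas hO)]
    exact nice_ae hm
  constructor
  · intro m V hinj hV
    refine ⟨fun i => (measurable_rst (V i)).aemeasurable, ?_⟩
    have hVs : ∀ i, SimplyConnectedSpace (V i) := fun i => hH Ω A (V i) hΩ hb hc hfΩ (hV i)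
    have hex : ∀ i, ∃ (Θ : Type) (_ : MeasurableSpace Θ) (P : Measure Θ)
        (G : ℕ → Θ → NonemptyCompacts ℂ) (H : ℕ → Θ → (ℂ → ℝ) → ℝ),
        IsProbabilityMeasure P ∧ IsSignedCarpets P (V i) G H := fun i =>
      hE (V i) (hole_open hO (hV' _ (hV i))) (hbO.subset (hole_sub (hV' _ (hV i))))
        (hole_ne (hV' _ (hV i))) (hVs i)
    choose Θ' mΘ' P' G' H' hP' hG' using hex
    exact indep hO hcO.nonempty hsh hN hinj (fun i => hV' _ (hV i))
      (fun i => (P' i).map (fun x k => G' i k x))
      (fun i => Measure.isProbabilityMeasure_map (NT730Y.meas_seq (hG' i)).aemeasurable)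
      (fun i => pair hS hO hbO hneO hcO (hV' _ (hV i)) hm (hG' i))
  · intro V hV Θ' mΘ' P' G' H' hP' hG'
    have hp := pair hS hO hbO hneO hcO (hV' V hV) hm hG'
    have : IsProbabilityMeasure (P'.map (fun x k => G' k x)) :=
      Measure.isProbabilityMeasure_map (NT730Y.meas_seq hG').aemeasurable
    have h3 := law_cl (hole_open hO (hV' V hV)) hp
    rw [← h3, ← hsh, Measure.map_map (measurable_cl V)
      (measurable_pi_lambda _ fun k => measurable_pi_apply _)]
    congr 1
    funext s
    exact rst_eq V s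

end Vale.Agent.P155.V743.Ind
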