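import Vale.Agent.P155.V743.Ind2
import Vale.Agent.P155.NT814Y.SplAll
import Vale.Agent.P155.NT34.YHSC
import Vale.Agent.P155.QQ.Exact

/-!
# P155, iteration of nested CLE₄: `ITER`
-/

namespace Vale.Agent.P155.V743.Ind

open MeasureTheory Set TopologicalSpace Q1

theorem spl : SPL := by
  intro O V hO hb hne hc hV Θ Θ' mΘ mΘ' P hP P' hP' G H G' H' h h'
  exact NT814Y.spl_all O V hO hb hne hc hV Θ mΘ P G H hP h Θ' mΘ' P' G' H' hP' h'

theorem exi : EXI := by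
  intro V hV hb hne hsc
  obtain ⟨-, μ, -, hμ, -⟩ := (QQ.exact_of NT613.vbp2).1 V hV hb hne hsc
  obtain ⟨Θ, mΘ, P, G, ξ, Γ, hP, -, -, -, -, -, -, -, -, -, hG⟩ := hμ
  exact ⟨Θ, mΘ, P, G, _, hP, hG⟩

/-- **ITER** -/
theorem iter : NO801.Y.ITER := iter_of spl exi NT34.Y.hsc

end Vale.Agent.P155.V743.Ind
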