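import Vale.Agent.P155.E4.Lay
import Vale.Agent.P155.E3.Main

/-!
# P155, NT, visit bound: the bilinear second moment of `h(Δg)` for a finite family of bumps
-/

namespace Vale.Agent.P155.V743

open Finset Skel J E E3 E4

section
variable {T : Temp} {R : ℕ} {κ CE : ℝ} {O : Set Pt} {X : Expl} {ω : Conf}
  {G : Pt → ℕ → Set Conf} {S : ℕ → Prop} {ι : Type*} {I : Finset ι} {x : ι → Pt} {n : ι → ℕ}
  {H : ι → ℝ} {ψ : ι → Pt → ℝ} {g : Pt → ℝ}

/-- second moment, bilinear form -/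
theorem bil_moment (hI : E_incr) (hM : E_meas) (hX : IsExpl T.V X) (hω : ω ∈ DD T.V)
    (hR1 : 1 ≤ R) (hfit : Fits T R) (hO : O ⊆ T.faceSet)
    (hin : ∀ v : Pt, (∀ f : Pt, v.1 - 1 ≤ f.1 → f.1 ≤ v.1 → v.2 - 1 ≤ f.2 → f.2 ≤ v.2 → f ∈ O) →
      v ∈ (X ω).1 ∧ v ∈ (X ω).2) (F : Fam O R κ S I x n H ψ g) (hCE : 0 ≤ CE)
    (hG : LocGood T κ CE R G S) {μ : ι → ℝ} {f : Pt → ℝ} {Kf Ff : ℝ} (hKf : 0 ≤ Kf) (hFf : 0 ≤ Ff)
    (hmass : ∀ q ∈ I, ∑ y ∈ box (x q) (n q), |f y| ≤ μ q)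
    (hcrude : ∀ ω' ∈ DD T.V, |hf ω' f| ≤ Kf) (hsup : ∀ y, |f y| ≤ Ff) :
    |cEx T.V X (fun ω' => hf ω' (lap g) * hf ω' f) ω + 2 / Real.pi * pair g f| ≤
      CE * (R : ℝ) ^ κ * (∑ q ∈ I, H q * (n q : ℝ) ^ (-1 + κ)) *
        cEx T.V X (fun ω' => |hf ω' f|) ω +
      CE * (R : ℝ) ^ κ * (∑ q ∈ I, H q * (n q : ℝ) ^ (-(1 / 20) : ℝ) * μ q) +
      (1400 * (R : ℝ) ^ 3 * Kf + 9 * (R : ℝ) ^ 2 * Ff) * (∑ q ∈ I, H q) *
        cEx T.V X (badW R G) ω := by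
  have hfin : T.faceSet.Finite := fs_of_sub_box hfit
  have hRr : (1 : ℝ) ≤ R := by exact_mod_cast hR1
  set E1 : ℝ := cEx T.V X (fun ω' => |hf ω' f|) ω with hE1
  have hE10 : 0 ≤ E1 := cEx_nonneg (fun _ _ => abs_nonneg _)
  have hB0 : 0 ≤ cEx T.V X (badW R G) ω := cEx_nonneg (fun _ _ => badW_nonneg _ _ _)
  set KB : ℝ := 1400 * (R : ℝ) ^ 3 * Kf + 9 * (R : ℝ) ^ 2 * Ff with hKB
  have hKB0 : 0 ≤ KB := by positivity
  have e0 : cEx T.V X (fun ω' => hf ω' (lap g) * hf ω' f) ω + 2 / Real.pi * pair g f =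
      ∑ q ∈ I, (cEx T.V X (fun ω' => hf ω' (lap (ψ q)) * hf ω' f) ω +
        2 / Real.pi * pair (ψ q) f) := by
    rw [cEx_congr (g' := fun ω' => ∑ q ∈ I, hf ω' (lap (ψ q)) * hf ω' f)
      (fun ω' _ => by
      rw [← Finset.sum_mul, ← F.hf_eq ω']), cEx_sum, F.pair_eq, Finset.mul_sum,
      Finset.sum_add_distrib]
  rw [e0]
  refine (Finset.abs_sum_le_sum_abs _ _).trans ?_
  have hterm : ∀ q ∈ I, |cEx T.V X (fun ω' => hf ω' (lap (ψ q)) * hf ω' f) ω +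
        2 / Real.pi * pair (ψ q) f| ≤
      CE * (R : ℝ) ^ κ * (H q * (n q : ℝ) ^ (-1 + κ)) * E1 +
      CE * (R : ℝ) ^ κ * (H q * (n q : ℝ) ^ (-(1 / 20) : ℝ) * μ q) +
        KB * H q * cEx T.V X (badW R G) ω := by
    intro q hq
    have p0 := F.h1 q hq
    have q4 := F.H0 q hq
    have q3 := F.deep q hq
    have q5 := F.bump q hq
    have p2 := F.tn q hq
    have hn1 : (1 : ℝ) ≤ n q := by exact_mod_cast p0
    have hnR : n q ≤ R := F.hR q hq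
    have htR : ((⌊((n q : ℕ) : ℝ) ^ (1 - 3 * κ)⌋₊ : ℕ) : ℝ) ≤ R := by
      exact_mod_cast p2.trans hnR
    have hd2 : 2 * n q ≤ dF T.faceSet (x q) := by
      have := dF_mono hO hfin (x q)
      omega
    obtain ⟨s1, s2⟩ := box_sub_X hin p0 q3
    set e1 : ℝ := CE * (H q) * (R : ℝ) ^ κ * (n q : ℝ) ^ (-1 + κ) with he1
    set e2 : ℝ := CE * (H q) * (R : ℝ) ^ κ * (n q : ℝ) ^ (-(1 / 20) : ℝ) with he2
    set Fq : ℝ := ∑ y ∈ box (x q) (n q), |f y| with hFq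
    have hFq0 : 0 ≤ Fq := Finset.sum_nonneg (fun _ _ => abs_nonneg _)
    have he10 : 0 ≤ e1 := by positivity
    have he20 : 0 ≤ e2 := by positivity
    have hpairc : |2 / Real.pi * pair (ψ q) f| ≤ 9 * (R : ℝ) ^ 2 * Ff * H q := by
      have h1 : |pair (ψ q) f| ≤ (2 * (⌊((n q : ℕ) : ℝ) ^ (1 - 3 * κ)⌋₊ : ℝ) + 1) ^ 2 *
          (H q * Ff) := by
        unfold pair
        apply J.abs_finsum_le (x := x q)
        · intro y
          rw [abs_mul]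
          exact mul_le_mul (IsBump.abs_le q5 y) (hsup y) (abs_nonneg _) q4
        · intro y hy
          rw [q5.1 y hy, zero_mul]
      have h2 : (2 * (⌊((n q : ℕ) : ℝ) ^ (1 - 3 * κ)⌋₊ : ℝ) + 1) ^ 2 ≤ 9 * (R : ℝ) ^ 2 := by
        calc (2 * (⌊((n q : ℕ) : ℝ) ^ (1 - 3 * κ)⌋₊ : ℝ) + 1) ^ 2 ≤ (3 * (R : ℝ)) ^ 2 :=
              pow_le_pow_left₀ (by positivity) (by linarith) 2
          _ = 9 * (R : ℝ) ^ 2 := by ring
      rw [abs_mul, abs_of_pos (by positivity : (0:ℝ) < 2 / Real.pi)]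
      calc 2 / Real.pi * |pair (ψ q) f| ≤ 1 * ((9 * (R : ℝ) ^ 2) * (H q * Ff)) := by
            apply mul_le_mul two_div_pi_le_one _ (abs_nonneg _) (by norm_num)
            exact h1.trans (mul_le_mul_of_nonneg_right h2 (by positivity))
        _ = _ := by ring
    have hb := box_to_X hX hω s1 s2 (G := G (x q) (n q))
      (W := fun ω' => hf ω' (lap (ψ q)) * hf ω' f) (F := fun ω' => hf ω' f)
      (K := 2 / Real.pi * pair (ψ q) f) (c := Fq * e2) (e := e1)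
      (b' := KB * H q) he10 (by positivity) (by positivity)
      (fun ω' h' hg => by
        obtain ⟨g1, g2⟩ := hG (x q) (n q) (F.hS q hq) hd2 ω' h' hg (H q) (ψ q) q5
        exact box_two hI hM hfit h' q5 p2 g1 g2)
      (fun ω' h' => by
        refine (abs_add_le _ _).trans ?_
        have c1 : |hf ω' (lap (ψ q)) * hf ω' f| ≤
            (1400 * (R : ℝ) ^ 3 * H q) * Kf := by
          rw [abs_mul]
          exact mul_le_mul (crude_Y hR1 hfit h' q5 (by omega)) (hcrude ω' h') (abs_nonneg _)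
            (by positivity)
        have c2 : KB * H q = (1400 * (R : ℝ) ^ 3 * H q) * Kf + 9 * (R : ℝ) ^ 2 * Ff * H q := by
          rw [hKB]; ring
        rw [c2]
        exact add_le_add c1 hpairc)
    refine hb.trans ?_
    have hx : x q ∈ box (0, 0) R := by
      have : x q ∈ O := mem_of_dF_pos (by omega)
      exact hfit (hO this)
    have hle : cEx T.V X (bad (G (x q) (n q))) ω ≤ cEx T.V X (badW R G) ω :=
      cEx_mono (fun ω' _ => bad_le_badW hx (by omega) ω')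
    have h2 : e1 = CE * (R : ℝ) ^ κ * (H q * (n q : ℝ) ^ (-1 + κ)) := by
      rw [he1]; ring
    have h3 : Fq * e2 ≤ CE * (R : ℝ) ^ κ * (H q * (n q : ℝ) ^ (-(1 / 20) : ℝ) * μ q) := by
      calc Fq * e2 ≤ μ q * e2 := mul_le_mul_of_nonneg_right (hmass q hq) he20
        _ = _ := by rw [he2]; ring
    have h4 : KB * H q * cEx T.V X (bad (G (x q) (n q))) ω ≤
        KB * H q * cEx T.V X (badW R G) ω :=
      mul_le_mul_of_nonneg_left hle (by positivity)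
    rw [h2]
    linarith
  refine (Finset.sum_le_sum hterm).trans (le_of_eq ?_)
  rw [Finset.sum_add_distrib, Finset.sum_add_distrib]
  have s1 : ∑ q ∈ I, CE * (R : ℝ) ^ κ * (H q * (n q : ℝ) ^ (-1 + κ)) * E1 =
      CE * (R : ℝ) ^ κ * (∑ q ∈ I, H q * (n q : ℝ) ^ (-1 + κ)) * E1 := by
    rw [Finset.mul_sum, Finset.sum_mul]
  have s2 : ∑ q ∈ I, CE * (R : ℝ) ^ κ * (H q * (n q : ℝ) ^ (-(1 / 20) : ℝ) * μ q) =
      CE * (R : ℝ) ^ κ * (∑ q ∈ I, H q * (n q : ℝ) ^ (-(1 / 20) : ℝ) * μ q) := by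
    rw [Finset.mul_sum]
  have s4 : ∑ q ∈ I, KB * H q * cEx T.V X (badW R G) ω =
      KB * (∑ q ∈ I, H q) * cEx T.V X (badW R G) ω := by
    rw [← Finset.sum_mul, ← Finset.mul_sum]
  rw [s1, s2, s4]

end

end Vale.Agent.P155.V743
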