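import Vale.Agent.P155.U613.Props
import Vale.Agent.P155.U613.Meas

/-!
# P155: intersecting a compact set with a closed set is Borel measurable
-/

namespace Vale.Agent.P155.V743.Cap

open MeasureTheory Set TopologicalSpace Uq

/-- measurability into the space of compact sets, from the distance functions -/
theorem measurable_nc {X : Type*} [MeasurableSpace X] {g : X → NonemptyCompacts ℂ}
    (h : ∀ n, Measurable (fun x => Metric.infDist (denseSeq ℂ n) (g x : Set ℂ))) :
    Measurable g := by
  set Φ : NonemptyCompacts ℂ → (ℕ → ℝ) :=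
    fun K n => Metric.infDist (denseSeq ℂ n) (K : Set ℂ) with hΦ
  have hc : Continuous Φ := continuous_pi fun n => U613.continuous_infDist _
  have hi : Function.Injective Φ := fun K L hKL => U613.ext_infDist fun n => congrFun hKL n
  exact (hc.measurableEmbedding hi).measurable_comp_iff.1 (measurable_pi_lambda _ h)

theorem coe_toNC {S : Set ℂ} (h : IsCompact S) (hn : S.Nonempty) : (toNC S : Set ℂ) = S := by
  unfold toNC
  rw [dif_pos ⟨h, hn⟩]
  rfl

theorem toNC_junk {S : Set ℂ} (h : ¬ S.Nonempty) : (toNC S : Set ℂ) = {0} := by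
  unfold toNC
  rw [dif_neg (fun h' => h h'.2)]
  rfl

theorem toNC_coe (K : NonemptyCompacts ℂ) : toNC (K : Set ℂ) = K :=
  SetLike.coe_injective (coe_toNC K.isCompact K.nonempty)

theorem isClosed_meets {F : Set ℂ} (hF : IsClosed F) :
    IsClosed {K : NonemptyCompacts ℂ | ((K : Set ℂ) ∩ F).Nonempty} := by
  exact NonemptyCompacts.isClosed_inter_nonempty_of_isClosed hF

/-- `K ↦ K ∩ C` is Borel measurable for closed `C` -/
theorem measurable_cap {C : Set ℂ} (hC : IsClosed C) :
    Measurable (fun K : NonemptyCompacts ℂ => toNC ((K : Set ℂ) ∩ C)) := by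
  apply measurable_nc
  intro n
  set z := denseSeq ℂ n with hz
  apply measurable_of_Iio
  intro r
  have hne : MeasurableSet {K : NonemptyCompacts ℂ | ((K : Set ℂ) ∩ C).Nonempty} :=
    (isClosed_meets hC).measurableSet
  have hball : MeasurableSet {K : NonemptyCompacts ℂ |
      ∃ q : ℚ, (q : ℝ) < r ∧ ((K : Set ℂ) ∩ (C ∩ Metric.closedBall z q)).Nonempty} := by
    have e : {K : NonemptyCompacts ℂ |
        ∃ q : ℚ, (q : ℝ) < r ∧ ((K : Set ℂ) ∩ (C ∩ Metric.closedBall z q)).Nonempty} =
        ⋃ q : ℚ, ⋃ _ : (q : ℝ) < r,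
          {K : NonemptyCompacts ℂ | ((K : Set ℂ) ∩ (C ∩ Metric.closedBall z q)).Nonempty} := by
      ext K
      simp
    rw [e]
    exact MeasurableSet.iUnion fun q => MeasurableSet.iUnion fun _ =>
      (isClosed_meets (hC.inter Metric.isClosed_closedBall)).measurableSet
  have e : (fun K : NonemptyCompacts ℂ => Metric.infDist z (toNC ((K : Set ℂ) ∩ C) : Set ℂ)) ⁻¹'
      Iio r = ({K : NonemptyCompacts ℂ | ((K : Set ℂ) ∩ C).Nonempty} ∩
        {K : NonemptyCompacts ℂ |
          ∃ q : ℚ, (q : ℝ) < r ∧ ((K : Set ℂ) ∩ (C ∩ Metric.closedBall z q)).Nonempty}) ∪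
        ({K : NonemptyCompacts ℂ | ((K : Set ℂ) ∩ C).Nonempty}ᶜ ∩
          {_K : NonemptyCompacts ℂ | Metric.infDist z ({0} : Set ℂ) < r}) := by
    ext K
    simp only [mem_preimage, mem_Iio, mem_union, mem_inter_iff, mem_ofPred_eq, mem_compl_iff]
    by_cases hK : ((K : Set ℂ) ∩ C).Nonempty
    · rw [coe_toNC (K.isCompact.inter_right hC) hK]
      simp only [hK, true_and, not_true_eq_false, false_and, or_false]
      rw [Metric.infDist_lt_iff hK]
      constructor
      · rintro ⟨y, ⟨hyK, hyC⟩, hy⟩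
        obtain ⟨q, hq1, hq2⟩ := exists_rat_btwn hy
        refine ⟨q, hq2, y, hyK, hyC, ?_⟩
        rw [Metric.mem_closedBall, dist_comm]
        exact hq1.le
      · rintro ⟨q, hq, y, hyK, hyC, hy⟩
        refine ⟨y, ⟨hyK, hyC⟩, ?_⟩
        rw [Metric.mem_closedBall, dist_comm] at hy
        exact hy.trans_lt hq
    · rw [toNC_junk hK]
      simp [hK]
  rw [e]
  exact (hne.inter hball).union (hne.compl.inter (MeasurableSet.const _))

/-- the same for sequences -/
theorem measurable_capSeq {C : Set ℂ} (hC : IsClosed C) (j : ℕ → ℕ) :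
    Measurable (fun (s : ℕ → NonemptyCompacts ℂ) (k : ℕ) => toNC ((s (j k) : Set ℂ) ∩ C)) :=
  measurable_pi_lambda _ fun k => (measurable_cap hC).comp (measurable_pi_apply (j k))

/-- **laws of sequences of compact sets are determined by the bounded continuous functions of
finitely many coordinates** -/
theorem law_ext {μ μ' : Measure (ℕ → NonemptyCompacts ℂ)} [IsFiniteMeasure μ] [IsFiniteMeasure μ']
    (h : ∀ (k : ℕ) (F : (Fin k → NonemptyCompacts ℂ) → ℝ), Continuous F → (∃ C, ∀ y, |F y| ≤ C) →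
      ∫ s, F (fun l => s l) ∂μ = ∫ s, F (fun l => s l) ∂μ') : μ = μ' := by
  refine U613.measure_ext (ι := ℕ × ℕ)
    (f := fun i s => Metric.infDist (denseSeq ℂ i.2) (s i.1 : Set ℂ)) ?_ ?_ ?_
  · intro i
    exact (U613.continuous_infDist _).measurable.comp (measurable_pi_apply i.1)
  · intro s t hst
    funext k
    exact U613.ext_infDist fun n => hst (k, n)
  · intro J F hF hFb
    obtain ⟨k, hk⟩ : ∃ k : ℕ, ∀ j : J, j.1.1 < k := by
      refine ⟨(J.sup fun j => j.1) + 1, fun j => ?_⟩
      have := Finset.le_sup (f := fun j : ℕ × ℕ => j.1) j.2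
      exact Nat.lt_succ_of_le this
    have := h k (fun y => F (fun j => Metric.infDist (denseSeq ℂ j.1.2)
      (y ⟨j.1.1, hk j⟩ : Set ℂ))) ?_ ?_
    · exact this
    · exact hF.comp (continuous_pi fun j =>
        (U613.continuous_infDist _).comp (continuous_apply _))
    · obtain ⟨C, hC⟩ := hFb
      exact ⟨C, fun y => hC _⟩

end Vale.Agent.P155.V743.Cap
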