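import Vale.Agent.P155.NT905.CovSplit
import Vale.Agent.P155.V743.BME

/-!
# P155, NT, visit bound (V1): the domain cut at the distance `w` from the line

`OC T E xS w` = the unexplored faces at distance `> w` from the line `x = xS` (`w = -1`: no cut).
All potentials of V1 at the macroscopic scale are taken in this domain: the layer function has no
mass near the line of the exploration; the artificial part of the layer (near `|x - xS| = w`) is
averaged over `w`.
-/

namespace Vale.Agent.P155.V743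

open Finset SW HT T905 T802 T862 G45 J H904 H12 NT E4 S862 NT743 S743 NT905

/-- the unexplored faces at distance `> w` from the line -/
def OC (T : Temp) (E : Set Pt) (xS w : ℤ) : Set Pt := {x | x ∈ OE T E ∧ w < |x.1 - xS|}

/-- `Δ(χ u)`, `u` the Green potential of `φ` in `OC` -/
noncomputable def fC (T : Temp) (E : Conf → Set Pt) (xS w : ℤ) (φ : Conf → Pt → ℝ) (s : ℕ)
    (ω : Conf) : Pt → ℝ :=
  lap (fun y => cutf (OC T (E ω) xS w) s y * pot (OC T (E ω) xS w) (φ ω) y)

/-- the layer function in `OC` -/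
noncomputable def gC (T : Temp) (E : Conf → Set Pt) (xS w : ℤ) (φ : Conf → Pt → ℝ) (s : ℕ)
    (ω : Conf) : Pt → ℝ :=
  fL (OC T (E ω) xS w) (φ ω) (cutf (OC T (E ω) xS w) s) (pot (OC T (E ω) xS w) (φ ω))

/-- the sum over all loops of the square of the area / `R²` (universal random variable) -/
noncomputable def ZR (R : ℕ) (ω : Conf) : ℝ :=
  ∑ A ∈ LF ω, (mass ω (fun x => if x ∈ box (0, 0) R then ((R : ℝ) ^ 2)⁻¹ else 0) A) ^ 2

/-- **(EZ)** -/
def EZ : Prop := ∃ C : ℝ, 0 ≤ C ∧ ∀ (R : ℕ) (T : Temp), 1 ≤ R → Skel.Fits T R →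
  Ex T.V (ZR R) ≤ C

theorem oc_sub {T : Temp} {E : Set Pt} {xS w : ℤ} : OC T E xS w ⊆ OE T E := fun _ h => h.1

theorem oc_finite (T : Temp) (E : Set Pt) (xS w : ℤ) : (OC T E xS w).Finite :=
  (oe_finite T E).subset oc_sub

theorem oc_neg (T : Temp) (E : Set Pt) (xS : ℤ) : OC T E xS (-1) = OE T E := by
  ext x
  constructor
  · exact fun h => h.1
  · exact fun h => ⟨h, lt_of_lt_of_le (by norm_num) (abs_nonneg _)⟩

theorem oc_cpr {T : Temp} {E : Set Pt} {xS w : ℤ} (h : CPr (OE T E)) : CPr (OC T E xS w) := by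
  intro p hp r
  by_cases h1 : p ∈ OE T E
  · refine ⟨(p.1, p.2 + r), fun h2 => hp ⟨h1, h2.2⟩, ?_⟩
    rw [dn_eq]
    simp
  · obtain ⟨y, hy, hr⟩ := h p h1 r
    exact ⟨y, fun h2 => hy h2.1, hr⟩

end Vale.Agent.P155.V743
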