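import Vale.Agent.P155.H878.Q1Stmt

/-!
# P155: continuous functionals on the space of loop collections

`sumI f Γ` is the sum of `f` over the members of `Γ`; it is continuous in `Γ` if `f` is continuous
and vanishes on loops of small diameter.
-/

namespace Vale.Agent.P155.V743

open Topology Filter MeasureTheory Vale.Agent.P155.Q1

/-- the sum of `f` over the members of the collection -/
noncomputable def sumI (f : Loop → ℝ) (Γ : LoopColl) : ℝ := ∑ᶠ x : Γ.Inst, f x.1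

/-- finitely many members have diameter `> e` -/
theorem big_fin (Γ : LoopColl) {e : ℝ} (he : 0 < e) : {x : Γ.Inst | e < x.1.diam}.Finite := by
  have h := (Γ.fin e he).biUnion (t := fun γ => Set.range fun i : Fin (Γ.mult γ) =>
    (⟨γ, i⟩ : Γ.Inst)) (fun γ _ => Set.finite_range _)
  refine h.subset ?_
  rintro ⟨γ, i⟩ hx
  rw [Set.mem_iUnion₂]
  refine ⟨γ, ⟨fun h0 => ?_, hx⟩, i, rfl⟩
  have := i.isLt
  omega

theorem supp_fin {f : Loop → ℝ} {e : ℝ} (he : 0 < e) (h0 : ∀ γ : Loop, γ.diam ≤ e → f γ = 0)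
    (Γ : LoopColl) : (Function.support fun x : Γ.Inst => f x.1).Finite := by
  refine (big_fin Γ he).subset fun x hx => ?_
  by_contra h
  exact hx (h0 _ (not_lt.1 h))

theorem sumI_eq {f : Loop → ℝ} (Γ : LoopColl) {s : Finset Γ.Inst}
    (h : ∀ x : Γ.Inst, f x.1 ≠ 0 → x ∈ s) : sumI f Γ = ∑ x ∈ s, f x.1 :=
  finsum_eq_sum_of_support_subset _ (fun x hx => h x hx)

theorem sumI_nonneg {f : Loop → ℝ} (hf : ∀ γ, 0 ≤ f γ) (Γ : LoopColl) : 0 ≤ sumI f Γ :=
  finsum_nonneg fun x => hf x.1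

theorem sum_le_sumI {f : Loop → ℝ} (hf : ∀ γ, 0 ≤ f γ) {e : ℝ} (he : 0 < e)
    (h0 : ∀ γ : Loop, γ.diam ≤ e → f γ = 0) (Γ : LoopColl) (s : Finset Γ.Inst) :
    ∑ x ∈ s, f x.1 ≤ sumI f Γ := by
  classical
  have hfin := supp_fin he h0 Γ
  rw [sumI_eq Γ (s := s ∪ hfin.toFinset) (fun x hx => by
    rw [Finset.mem_union, Set.Finite.mem_toFinset]
    exact Or.inr hx)]
  exact Finset.sum_le_sum_of_subset_of_nonneg Finset.subset_union_left fun x _ _ => hf x.1

open Classical in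
/-- **continuity** -/
theorem sumI_continuous {f : Loop → ℝ} (hf : Continuous f) {e : ℝ} (he : 0 < e)
    (h0 : ∀ γ : Loop, γ.diam ≤ e → f γ = 0) : Continuous (sumI f) := by
  rw [continuous_iff_continuousAt]
  intro Γ
  have hb : (𝓝 Γ).HasBasis (fun ε : ℝ => 0 < ε) (fun ε => {Γ' | close ε Γ Γ'}) :=
    nhds_basis_uniformity' hasBasis
  unfold ContinuousAt
  rw [Metric.tendsto_nhds]
  intro η hη
  obtain ⟨A, hA⟩ : ∃ A : Finset Γ.Inst, ∀ x, x ∈ A ↔ e / 2 < x.1.diam :=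
    ⟨(big_fin Γ (half_pos he)).toFinset, fun x => by simp⟩
  obtain ⟨κ, hκ⟩ : ∃ κ : ℝ, κ = η / (A.card + 1) := ⟨_, rfl⟩
  have hκ0 : 0 < κ := by rw [hκ]; positivity
  obtain ⟨δ, hδ, hδA⟩ : ∃ δ : ℝ, 0 < δ ∧ ∀ y ∈ A, ∀ γ : Loop, dist γ y.1 < δ →
      |f γ - f y.1| < κ := by
    have h1 : ∀ y ∈ A, ∀ᶠ δ in 𝓝[>] (0 : ℝ), ∀ γ : Loop, dist γ y.1 < δ → |f γ - f y.1| < κ := by
      intro y _
      obtain ⟨δ, hδ, h⟩ := Metric.continuous_iff.1 hf y.1 κ hκ0
      filter_upwards [Ioo_mem_nhdsGT hδ] with d hd γ hγ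
      exact h γ (hγ.trans hd.2)
    have h2 := (Filter.eventually_all_finset A).2 h1
    obtain ⟨δ, hδ, h3⟩ := (h2.and self_mem_nhdsWithin).exists
    exact ⟨δ, h3, hδ⟩
  obtain ⟨ε, hε, hε1, hε2⟩ : ∃ ε : ℝ, 0 < ε ∧ ε < δ ∧ ε ≤ e / 8 :=
    ⟨min (δ / 2) (e / 8), lt_min (half_pos hδ) (by positivity),
      (min_le_left _ _).trans_lt (half_lt_self hδ), min_le_right _ _⟩
  refine Filter.mem_of_superset (hb.mem_of_mem hε) ?_
  rintro Γ' ⟨R, h1, h2, h3, h4, h5⟩
  -- the matched members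
  obtain ⟨S, hS⟩ : ∃ S : Finset Γ.Inst, S = A.filter (fun y => ∃ x, R y x) := ⟨_, rfl⟩
  have hSA : ∀ y ∈ S, y ∈ A := fun y hy => by
    rw [hS, Finset.mem_filter] at hy
    exact hy.1
  have hSR : ∀ y ∈ S, ∃ x, R y x := fun y hy => by
    rw [hS, Finset.mem_filter] at hy
    exact hy.2
  choose g hg using hSR
  -- the sum over `Γ`
  have e1 : sumI f Γ = ∑ y ∈ S.attach, f y.1.1 := by
    rw [Finset.sum_attach S (fun y => f y.1)]
    refine sumI_eq Γ fun y hy => ?_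
    have hd : e < y.1.diam := by
      by_contra hc
      exact hy (h0 _ (not_lt.1 hc))
    rw [hS, Finset.mem_filter, hA]
    exact ⟨by linarith, h3 y (by linarith)⟩
  -- the sum over `Γ'`
  have e2 : sumI f Γ' = ∑ y ∈ S.attach, f (g y.1 y.2).1 := by
    rw [← Finset.sum_image (s := S.attach) (g := fun y => g y.1 y.2) (f := fun x => f x.1)
      (fun y _ y' _ hyy => by
        apply Subtype.ext
        have hyy' : g y.1 y.2 = g y'.1 y'.2 := hyy
        refine h2 y.1 y'.1 (g y.1 y.2) (hg y.1 y.2) ?_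
        rw [hyy']
        exact hg y'.1 y'.2)]
    refine sumI_eq Γ' fun x hx => ?_
    have hd : e < x.1.diam := by
      by_contra hc
      exact hx (h0 _ (not_lt.1 hc))
    obtain ⟨y, hy⟩ := h4 x (by linarith)
    have hyS : y ∈ S := by
      rw [hS, Finset.mem_filter, hA]
      refine ⟨?_, x, hy⟩
      have q1 := Loop.diam_le x.1 y.1
      have q2 := h5 y x hy
      rw [dist_comm] at q2
      linarith
    rw [Finset.mem_image]
    exact ⟨⟨y, hyS⟩, Finset.mem_attach _ _, h1 y _ _ (hg y hyS) hy⟩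
  show dist (sumI f Γ') (sumI f Γ) < η
  rw [Real.dist_eq, e1, e2, ← Finset.sum_sub_distrib]
  calc |∑ y ∈ S.attach, (f (g y.1 y.2).1 - f y.1.1)|
      ≤ ∑ y ∈ S.attach, |f (g y.1 y.2).1 - f y.1.1| := Finset.abs_sum_le_sum_abs _ _
    _ ≤ ∑ _y ∈ S.attach, κ := by
        refine Finset.sum_le_sum fun y _ => (hδA y.1 (hSA y.1 y.2) _ ?_).le
        have q2 := h5 y.1 (g y.1 y.2) (hg y.1 y.2)
        rw [dist_comm] at q2
        linarith
    _ = (S.card : ℝ) * κ := by rw [Finset.sum_const, Finset.card_attach, nsmul_eq_mul]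
    _ ≤ (A.card : ℝ) * κ := by
        refine mul_le_mul_of_nonneg_right ?_ hκ0.le
        exact_mod_cast Finset.card_le_card hSA
    _ < η := by
        rw [hκ, mul_div_assoc', div_lt_iff₀ (by positivity)]
        nlinarith

/-- the diameter is continuous -/
theorem diam_continuous : Continuous Loop.diam := by
  refine LipschitzWith.continuous (K := 2) (LipschitzWith.of_dist_le_mul fun γ γ' => ?_)
  rw [Real.dist_eq, abs_sub_le_iff]
  have h1 := Loop.diam_le γ γ'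
  have h2 := Loop.diam_le γ' γ
  rw [dist_comm γ' γ] at h2
  push_cast
  constructor <;> linarith

/-- distance of the point `z` to the loop -/
noncomputable def PL.near (z : ℂ) (γ : PL) : ℝ := ⨅ t : S1, dist (γ.c t) z

theorem PL.near_bdd (z : ℂ) (γ : PL) : BddBelow (Set.range fun t : S1 => dist (γ.c t) z) :=
  ⟨0, by rintro _ ⟨t, rfl⟩; exact dist_nonneg⟩

theorem PL.near_le_dist (z : ℂ) (γ : PL) (t : S1) : PL.near z γ ≤ dist (γ.c t) z :=
  ciInf_le (PL.near_bdd z γ) t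

theorem PL.le_near {z : ℂ} {γ : PL} {ρ : ℝ} (h : ∀ t, ρ ≤ dist (γ.c t) z) : ρ ≤ PL.near z γ :=
  le_ciInf h

theorem PL.near_le (z : ℂ) (γ γ' : PL) : PL.near z γ ≤ PL.near z γ' + dist γ γ' := by
  refine le_of_forall_pos_le_add fun ε hε => ?_
  rw [dist_comm]
  obtain ⟨φ, hφ⟩ := exists_lt (show ldist γ' γ < ldist γ' γ + ε by linarith)
  have h3 : PL.near z γ - dist γ'.c (γ.c.comp (φ : C(S1, S1))) ≤ PL.near z γ' := by
    refine PL.le_near fun t => ?_
    have h1 : dist (γ'.c t) (γ.c (φ t)) ≤ dist γ'.c (γ.c.comp (φ : C(S1, S1))) :=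
      ContinuousMap.dist_apply_le_dist (f := γ'.c) (g := γ.c.comp (φ : C(S1, S1))) t
    have h2 := PL.near_le_dist z γ (φ t)
    have h4 := dist_triangle (γ.c (φ t)) (γ'.c t) z
    rw [dist_comm (γ.c (φ t)) (γ'.c t)] at h4
    linarith
  rw [dist_def]
  linarith

/-- distance of the point `z` to the loop -/
noncomputable def near (z : ℂ) : Loop → ℝ :=
  SeparationQuotient.lift (PL.near z) (by
    intro γ γ' h
    have h0 : dist γ γ' = 0 := Metric.inseparable_iff.1 h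
    have h1 := PL.near_le z γ γ'
    have h2 := PL.near_le z γ' γ
    rw [dist_comm γ' γ] at h2
    rw [h0] at h1 h2
    linarith)

@[simp] theorem near_mk (z : ℂ) (γ : PL) : near z (SeparationQuotient.mk γ) = PL.near z γ := rfl

theorem near_le (z : ℂ) (γ γ' : Loop) : near z γ ≤ near z γ' + dist γ γ' := by
  obtain ⟨γ, rfl⟩ := SeparationQuotient.surjective_mk γ
  obtain ⟨γ', rfl⟩ := SeparationQuotient.surjective_mk γ'
  rw [SeparationQuotient.dist_mk]
  exact PL.near_le z γ γ'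

theorem near_continuous (z : ℂ) : Continuous (near z) := by
  refine LipschitzWith.continuous (K := 1) (LipschitzWith.of_dist_le_mul fun γ γ' => ?_)
  rw [Real.dist_eq, abs_sub_le_iff]
  have h1 := near_le z γ γ'
  have h2 := near_le z γ' γ
  rw [dist_comm γ' γ] at h2
  push_cast
  constructor <;> linarith

/-- a continuous cutoff: `0` for diameter `≤ m / 2`, `1` for diameter `≥ m` -/
noncomputable def bigf (m : ℝ) (γ : Loop) : ℝ := min 1 (max 0 (2 * γ.diam / m - 1))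

theorem bigf_continuous (m : ℝ) : Continuous (bigf m) := by
  have := diam_continuous
  unfold bigf
  fun_prop

theorem bigf_nonneg (m : ℝ) (γ : Loop) : 0 ≤ bigf m γ := le_min zero_le_one (le_max_left _ _)

theorem bigf_le_one (m : ℝ) (γ : Loop) : bigf m γ ≤ 1 := min_le_left _ _

theorem bigf_zero {m : ℝ} (hm : 0 < m) {γ : Loop} (h : γ.diam ≤ m / 2) : bigf m γ = 0 := by
  unfold bigf
  have : 2 * γ.diam / m - 1 ≤ 0 := by
    rw [sub_nonpos, div_le_one hm]
    linarith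
  rw [max_eq_left this]
  norm_num

theorem bigf_one {m : ℝ} (hm : 0 < m) {γ : Loop} (h : m ≤ γ.diam) : bigf m γ = 1 := by
  unfold bigf
  have : 1 ≤ 2 * γ.diam / m - 1 := by
    rw [le_sub_iff_add_le, le_div_iff₀ hm]
    linarith
  rw [min_eq_left (this.trans (le_max_right _ _))]

/-- a continuous cutoff: `1` for loops at distance `≤ ρ` of `z`, `0` at distance `≥ 2 ρ` -/
noncomputable def nearf (z : ℂ) (ρ : ℝ) (γ : Loop) : ℝ := min 1 (max 0 (2 - near z γ / ρ))

theorem nearf_continuous (z : ℂ) (ρ : ℝ) : Continuous (nearf z ρ) := by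
  have := near_continuous z
  unfold nearf
  fun_prop

theorem nearf_nonneg (z : ℂ) (ρ : ℝ) (γ : Loop) : 0 ≤ nearf z ρ γ :=
  le_min zero_le_one (le_max_left _ _)

theorem nearf_zero {z : ℂ} {ρ : ℝ} (hρ : 0 < ρ) {γ : Loop} (h : 2 * ρ ≤ near z γ) :
    nearf z ρ γ = 0 := by
  unfold nearf
  have : 2 - near z γ / ρ ≤ 0 := by
    rw [sub_nonpos, le_div_iff₀ hρ]
    exact h
  rw [max_eq_left this]
  norm_num

theorem nearf_one {z : ℂ} {ρ : ℝ} (hρ : 0 < ρ) {γ : Loop} (h : near z γ ≤ ρ) :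
    nearf z ρ γ = 1 := by
  unfold nearf
  have : near z γ / ρ ≤ 1 := by
    rw [div_le_one hρ]
    exact h
  rw [min_eq_left ((by linarith : (1 : ℝ) ≤ 2 - near z γ / ρ).trans (le_max_right _ _))]

/-- **loops which meet a ball**: a continuous functional with values in `[0, 1]`, which is `1` if
a member of diameter `≥ m` comes into `ball z ρ`, and `0` if no member comes into `ball z (2ρ)` -/
theorem exists_meet (z : ℂ) {ρ m : ℝ} (hρ : 0 < ρ) (hm : 0 < m) : ∃ F : LoopColl → ℝ,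
    Continuous F ∧ (∀ Γ, 0 ≤ F Γ ∧ F Γ ≤ 1) ∧
    (∀ Γ : LoopColl, (∃ γ : Loop, Γ.mult γ ≠ 0 ∧ m ≤ γ.diam ∧ near z γ ≤ ρ) → F Γ = 1) ∧
    (∀ Γ : LoopColl, (∀ γ : Loop, Γ.mult γ ≠ 0 → 2 * ρ ≤ near z γ) → F Γ = 0) := by
  obtain ⟨f, hf⟩ : ∃ f : Loop → ℝ, f = fun γ => bigf m γ * nearf z ρ γ := ⟨_, rfl⟩
  have hfc : Continuous f := by
    rw [hf]
    exact (bigf_continuous m).mul (nearf_continuous z ρ)
  have hf0 : ∀ γ, 0 ≤ f γ := fun γ => by
    rw [hf]
    exact mul_nonneg (bigf_nonneg m γ) (nearf_nonneg z ρ γ)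
  have hfs : ∀ γ : Loop, γ.diam ≤ m / 2 → f γ = 0 := fun γ h => by
    rw [hf]
    simp only
    rw [bigf_zero hm h, zero_mul]
  refine ⟨fun Γ => min 1 (sumI f Γ), continuous_const.min (sumI_continuous hfc (half_pos hm) hfs),
    fun Γ => ⟨le_min zero_le_one (sumI_nonneg hf0 Γ), min_le_left _ _⟩, ?_, ?_⟩
  · rintro Γ ⟨γ, h1, h2, h3⟩
    refine min_eq_left ?_
    have h4 := sum_le_sumI hf0 (half_pos hm) hfs Γ {⟨γ, ⟨0, Nat.pos_of_ne_zero h1⟩⟩}
    rw [Finset.sum_singleton] at h4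
    refine le_trans (le_of_eq ?_) h4
    rw [hf]
    simp only
    rw [bigf_one hm h2, nearf_one hρ h3, one_mul]
  · intro Γ h
    have : sumI f Γ = 0 := by
      unfold sumI
      rw [← finsum_zero (α := Γ.Inst)]
      congr 1
      funext x
      rw [hf]
      simp only
      rw [nearf_zero hρ (h x.1 (fun h0 => by have := x.2.isLt; omega)), mul_zero]
    show min 1 (sumI f Γ) = 0
    rw [this]
    norm_num

/-- **number of large loops**: for every probability measure there are a number `k` and a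
continuous functional with values in `[0, 1]`, of small mean, which is `1` if there are at least
`k` members of diameter `≥ m` -/
theorem exists_count {m : ℝ} (hm : 0 < m) (μ : Measure LoopColl) [IsProbabilityMeasure μ] {η : ℝ}
    (hη : 0 < η) : ∃ k : ℕ, ∃ F : LoopColl → ℝ, Continuous F ∧ (∀ Γ, 0 ≤ F Γ ∧ F Γ ≤ 1) ∧
    (∀ (Γ : LoopColl) (s : Finset Γ.Inst), (∀ x ∈ s, m ≤ x.1.diam) → k ≤ s.card → F Γ = 1) ∧
    ∫ Γ, F Γ ∂μ < η := by
  obtain ⟨N, hN⟩ : ∃ N : LoopColl → ℝ, N = sumI (bigf m) := ⟨_, rfl⟩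
  have hNc : Continuous N := by
    rw [hN]
    exact sumI_continuous (bigf_continuous m) (half_pos hm) fun γ h => bigf_zero hm h
  have hN0 : ∀ Γ, 0 ≤ N Γ := fun Γ => by
    rw [hN]
    exact sumI_nonneg (bigf_nonneg m) Γ
  obtain ⟨F, hF⟩ : ∃ F : ℕ → LoopColl → ℝ, F = fun (k : ℕ) Γ => min 1 (N Γ / ((k : ℝ) + 1)) :=
    ⟨_, rfl⟩
  have hFc : ∀ k, Continuous (F k) := fun k => by
    rw [hF]
    exact continuous_const.min (hNc.div_const _)
  have hF0 : ∀ k Γ, 0 ≤ F k Γ ∧ F k Γ ≤ 1 := fun k Γ => by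
    rw [hF]
    exact ⟨le_min zero_le_one (div_nonneg (hN0 Γ) (by positivity)), min_le_left _ _⟩
  have hlim : Tendsto (fun k => ∫ Γ, F k Γ ∂μ) atTop (𝓝 (∫ _Γ, (0 : ℝ) ∂μ)) := by
    refine tendsto_integral_of_dominated_convergence (fun _ => 1)
      (fun k => (hFc k).aestronglyMeasurable) (integrable_const _)
      (fun k => Eventually.of_forall fun Γ => ?_) (Eventually.of_forall fun Γ => ?_)
    · rw [Real.norm_eq_abs, abs_of_nonneg (hF0 k Γ).1]
      exact (hF0 k Γ).2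
    · rw [hF]
      have h1 : Tendsto (fun k : ℕ => N Γ / ((k : ℝ) + 1)) atTop (𝓝 0) := by
        have h2 := tendsto_one_div_add_atTop_nhds_zero_nat (𝕜 := ℝ)
        have h3 := h2.const_mul (N Γ)
        rw [mul_zero] at h3
        refine h3.congr fun k => ?_
        rw [mul_one_div]
      have h4 := (tendsto_const_nhds (x := (1 : ℝ))).min h1
      rwa [min_eq_right (zero_le_one)] at h4
  rw [integral_zero] at hlim
  obtain ⟨k, hk⟩ := ((tendsto_order.1 hlim).2 η hη).exists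
  refine ⟨k + 1, F k, hFc k, hF0 k, ?_, hk⟩
  intro Γ s hs hks
  have h1 : ((k + 1 : ℕ) : ℝ) ≤ N Γ := by
    calc ((k + 1 : ℕ) : ℝ) ≤ s.card := by exact_mod_cast hks
      _ = ∑ x ∈ s, (1 : ℝ) := by simp
      _ = ∑ x ∈ s, bigf m x.1 := Finset.sum_congr rfl fun x hx => (bigf_one hm (hs x hx)).symm
      _ ≤ N Γ := by
          rw [hN]
          exact sum_le_sumI (bigf_nonneg m) (half_pos hm) (fun γ h => bigf_zero hm h) Γ s
  rw [hF]
  simp only
  refine min_eq_left ?_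
  rw [le_div_iff₀ (by positivity), one_mul]
  push_cast at h1
  exact h1

end Vale.Agent.P155.V743
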