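import Vale.Agent.P155.V743.XB
import Vale.Agent.P155.QQ.Fin
import Vale.Agent.P155.E.Prob
import Vale.Agent.P155.H12.Basic
import Vale.Agent.P155.L.Cycle

/-!
# P155: large loops of the approximations, from convergence in law to nested CLE₄
-/

namespace Vale.Agent.P155.V743

open Topology Filter MeasureTheory Vale.Agent.P155 Vale.Agent.P155.Q1

/-! ### the members of the lattice collection -/

theorem LL_eq {δ : ℝ} {a : ℂ} {ω : Conf} (h : (Loops ω).Finite) :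
    LL δ a ω = ofFamily (Loops ω) h (loopOf δ a ω) := by
  unfold LL
  rw [dif_pos h]

theorem LL_mult {δ : ℝ} {a : ℂ} {ω : Conf} (h : (Loops ω).Finite) {γ : Loop} (hγ : 0 < γ.diam) :
    (LL δ a ω).mult γ = Set.ncard {L | L ∈ Loops ω ∧ loopOf δ a ω L = γ} := by
  rw [LL_eq h]
  show (if 0 < γ.diam then _ else 0) = _
  rw [if_pos hγ]

theorem LL_ne {δ : ℝ} {a : ℂ} {ω : Conf} (h : (Loops ω).Finite) {L : Set Pt} (hL : L ∈ Loops ω)
    (hd : 0 < (loopOf δ a ω L).diam) : (LL δ a ω).mult (loopOf δ a ω L) ≠ 0 := by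
  rw [LL_mult h hd]
  have hfin : {L' | L' ∈ Loops ω ∧ loopOf δ a ω L' = loopOf δ a ω L}.Finite :=
    h.subset fun _ hx => hx.1
  rw [Ne, Set.ncard_eq_zero hfin]
  intro h0
  have h1 : L ∈ {L' | L' ∈ Loops ω ∧ loopOf δ a ω L' = loopOf δ a ω L} := ⟨hL, rfl⟩
  rw [h0] at h1
  exact h1

/-- many large loops give many large members -/
theorem LL_count {δ : ℝ} {a : ℂ} {ω : Conf} (h : (Loops ω).Finite) {m : ℝ} (hm : 0 < m)
    (s : Finset (Set Pt)) (hs : ∀ L ∈ s, L ∈ Loops ω ∧ m ≤ (loopOf δ a ω L).diam) :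
    ∃ t : Finset (LL δ a ω).Inst, s.card ≤ t.card ∧ ∀ x ∈ t, m ≤ x.1.diam := by
  classical
  refine ⟨(s.image (loopOf δ a ω)).sigma (fun _ => Finset.univ), ?_, ?_⟩
  · rw [Finset.card_sigma, Finset.card_eq_sum_card_image (loopOf δ a ω) s]
    refine Finset.sum_le_sum fun γ hγ => ?_
    obtain ⟨L0, hL0, rfl⟩ := Finset.mem_image.1 hγ
    have hd : 0 < (loopOf δ a ω L0).diam := hm.trans_le (hs L0 hL0).2
    rw [Finset.card_univ, Fintype.card_fin, LL_mult h hd, ← Set.ncard_coe_finset]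
    refine Set.ncard_le_ncard ?_ (h.subset fun _ hx => hx.1)
    intro L hL
    rw [Finset.mem_coe, Finset.mem_filter] at hL
    exact ⟨(hs L hL.1).1, hL.2⟩
  · intro x hx
    rw [Finset.mem_sigma] at hx
    obtain ⟨L0, hL0, h1⟩ := Finset.mem_image.1 hx.1
    rw [← h1]
    exact (hs L0 hL0).2

/-! ### nested CLE₄ -/

theorem near_of_hole {Ω : Set ℂ} {G : ℕ → TopologicalSpace.NonemptyCompacts ℂ} {Γ : LoopColl}
    (hΓ : HoleLoops Ω G Γ) {z : ℂ} {r : ℝ} (hz : ∀ w ∈ Ω, r ≤ dist w z) {γ : Loop}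
    (hγ : Γ.mult γ ≠ 0) : r ≤ near z γ := by
  rw [hΓ.mult γ] at hγ
  obtain ⟨p, hp1, hp2, c, hc, rfl⟩ := Set.nonempty_of_ncard_ne_zero hγ
  rw [near_mk]
  refine PL.le_near fun t => hz _ (hΓ.inside p.1 p.2 hp1 hp2 ?_)
  rw [← hc.2]
  exact ⟨t, rfl⟩

/-- all loops of nested CLE₄ are in the domain -/
theorem near_ae {Ω : Set ℂ} {μ : Measure LoopColl} (hμ : IsNestedCLE4 Ω μ) {F : LoopColl → ℝ}
    (hF : Continuous F) {z : ℂ} {r : ℝ} (hz : ∀ w ∈ Ω, r ≤ dist w z)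
    (hF0 : ∀ Γ : LoopColl, (∀ γ : Loop, Γ.mult γ ≠ 0 → r ≤ near z γ) → F Γ = 0) :
    ∫ Γ, F Γ ∂μ = 0 := by
  obtain ⟨Θ, _, P, G, ξ, Γ, hP, hΓm, rfl, hH, -⟩ := hμ
  rw [integral_map hΓm hF.aestronglyMeasurable]
  refine integral_eq_zero_of_ae ?_
  filter_upwards [hH] with x hx
  exact hF0 _ fun γ hγ => near_of_hole hx hz hγ

theorem prob_of_cle {Ω : Set ℂ} {μ : Measure LoopColl} (hμ : IsNestedCLE4 Ω μ) :
    IsProbabilityMeasure μ := by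
  obtain ⟨Θ, _, P, G, ξ, Γ, hP, hΓm, rfl, -⟩ := hμ
  exact Measure.isProbabilityMeasure_map hΓm

/-! ### the two limits -/

theorem Pr_le_Ex {V : Finset Pt} {p : Conf → Prop} {f : Conf → ℝ} (h0 : ∀ ω ∈ DD V, 0 ≤ f ω)
    (h1 : ∀ ω ∈ DD V, p ω → f ω = 1) : Pr V p ≤ Ex V f := by
  unfold Pr
  refine H12.Ex_mono fun ω hω => ?_
  by_cases h : p ω
  · rw [Set.indicator_of_mem (show ω ∈ {ω | p ω} from h), h1 ω hω h]
  · rw [Set.indicator_of_notMem (show ω ∉ {ω | p ω} from h)]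
    exact h0 ω hω

section

variable {Ω : Set ℂ} (S : Approx Ω) {μ : Measure LoopColl}

/-- the loops of the approximations converge in law to `μ` -/
def ConvTo (μ : Measure LoopColl) : Prop :=
  ∀ F : LoopColl → ℝ, Continuous F → (∃ C, ∀ Γ, |F Γ| ≤ C) →
    Tendsto (fun n => Ex (S.T n).V (fun ω => F (LL (S.δ n) (S.a n) ω))) atTop (𝓝 (∫ Γ, F Γ ∂μ))

/-- **no large loop comes near a point outside the domain** -/
theorem meet_tendsto (hμ : IsNestedCLE4 Ω μ) (hc : ConvTo S μ) {z : ℂ} {ρ m : ℝ} (hρ : 0 < ρ)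
    (hm : 0 < m) (hz : ∀ w ∈ Ω, 2 * ρ ≤ dist w z) :
    Tendsto (fun n => Pr (S.T n).V (fun ω => ∃ L ∈ Loops ω,
      m ≤ (loopOf (S.δ n) (S.a n) ω L).diam ∧ near z (loopOf (S.δ n) (S.a n) ω L) ≤ ρ)) atTop
      (𝓝 0) := by
  obtain ⟨F, hFc, hF01, hF1, hF0⟩ := exists_meet z hρ hm
  have h := hc F hFc ⟨1, fun Γ => abs_le.2 ⟨by linarith [(hF01 Γ).1], (hF01 Γ).2⟩⟩
  rw [near_ae hμ hFc hz hF0] at h
  refine squeeze_zero (fun n => E.Pr_nonneg _ _) (fun n => ?_) h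
  refine Pr_le_Ex (fun ω _ => (hF01 _).1) fun ω hω hL => ?_
  obtain ⟨L, hL, h1, h2⟩ := hL
  exact hF1 _ ⟨_, LL_ne (Vale.Agent.P155.L.loops_finite hω) hL (hm.trans_le h1), h1, h2⟩

/-- **the number of large loops is bounded in probability** -/
theorem count_ev (hμ : IsNestedCLE4 Ω μ) (hc : ConvTo S μ) {m η : ℝ} (hm : 0 < m) (hη : 0 < η) :
    ∃ k : ℕ, ∀ᶠ n in atTop, Pr (S.T n).V (fun ω => ∃ s : Finset (Set Pt), k ≤ s.card ∧
      ∀ L ∈ s, L ∈ Loops ω ∧ m ≤ (loopOf (S.δ n) (S.a n) ω L).diam) ≤ η := by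
  have := prob_of_cle hμ
  obtain ⟨k, F, hFc, hF01, hF1, hFη⟩ := exists_count hm μ hη
  have h := hc F hFc ⟨1, fun Γ => abs_le.2 ⟨by linarith [(hF01 Γ).1], (hF01 Γ).2⟩⟩
  refine ⟨k, ?_⟩
  filter_upwards [(tendsto_order.1 h).2 η hFη] with n hn
  refine (Pr_le_Ex (fun ω _ => (hF01 _).1) fun ω hω hs => ?_).trans hn.le
  obtain ⟨s, h1, h2⟩ := hs
  obtain ⟨t, h3, h4⟩ := LL_count (Vale.Agent.P155.L.loops_finite hω) hm s h2
  exact hF1 _ t h4 (h1.trans h3)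

end

end Vale.Agent.P155.V743
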