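import Vale.Agent.P155.V743.XB2
import Vale.Agent.P155.NO801.Def

/-!
# P155: block (B) in the form of `NO801.Def`
-/

namespace Vale.Agent.P155.V743

open Topology Filter MeasureTheory Vale.Agent.P155 Vale.Agent.P155.Q1

theorem pnear_eq (z : ℂ) (γ : PL) : PL.near z γ = NO801.pnr z γ := by
  have hne : (Set.range γ.c).Nonempty := ⟨γ.c 0, 0, rfl⟩
  refine le_antisymm ?_ ?_
  · refine (Metric.le_infDist hne).2 ?_
    rintro _ ⟨t, rfl⟩
    rw [dist_comm]
    exact PL.near_le_dist z γ t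
  · refine PL.le_near fun t => ?_
    rw [dist_comm]
    exact Metric.infDist_le_dist_of_mem ⟨t, rfl⟩

theorem near_eq (z : ℂ) (γ : Loop) : near z γ = NO801.nr z γ := by
  obtain ⟨γ, rfl⟩ := SeparationQuotient.surjective_mk γ
  exact pnear_eq z γ

/-- the two forms of the sum over the members -/
theorem sf_eq {f : Loop → ℝ} {e : ℝ} (he : 0 < e) (h0 : ∀ γ : Loop, γ.diam ≤ e → f γ = 0)
    (Γ : LoopColl) : NO801.Sf f Γ = sumI f Γ := by
  classical
  have hfin := Γ.fin e he
  obtain ⟨A, hA⟩ : ∃ A : Finset Loop, ∀ γ, γ ∈ A ↔ Γ.mult γ ≠ 0 ∧ e < γ.diam :=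
    ⟨hfin.toFinset, fun γ => by simp⟩
  have h1 : NO801.Sf f Γ = ∑ γ ∈ A, (Γ.mult γ : ℝ) * f γ := by
    unfold NO801.Sf
    refine finsum_eq_sum_of_support_subset _ fun γ hγ => ?_
    rw [Function.mem_support] at hγ
    rw [Finset.mem_coe, hA]
    constructor
    · intro h
      rw [h] at hγ
      simp at hγ
    · by_contra h
      rw [h0 γ (not_lt.1 h), mul_zero] at hγ
      exact hγ rfl
  have h2 : sumI f Γ = ∑ x ∈ A.sigma (fun γ => (Finset.univ : Finset (Fin (Γ.mult γ)))), f x.1 := by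
    refine sumI_eq Γ fun x hx => ?_
    rw [Finset.mem_sigma, hA]
    refine ⟨⟨fun h => ?_, ?_⟩, Finset.mem_univ _⟩
    · have := x.2.isLt
      omega
    · by_contra h
      exact hx (h0 _ (not_lt.1 h))
  rw [h1, h2, Finset.sum_sigma]
  refine Finset.sum_congr rfl fun γ _ => ?_
  show _ = ∑ _s : Fin (Γ.mult γ), f γ
  rw [Finset.sum_const, Finset.card_univ, Fintype.card_fin, nsmul_eq_mul]

/-- **(B)** -/
theorem bx : NO801.BX := by
  intro f Cf η t hη _ _ hLip h0
  have hfc : Continuous f := by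
    have hC : 0 ≤ |Cf| := abs_nonneg Cf
    refine LipschitzWith.continuous (K := ⟨|Cf|, hC⟩) (LipschitzWith.of_dist_le_mul fun γ γ' => ?_)
    rw [Real.dist_eq]
    refine (hLip γ γ').trans ?_
    exact mul_le_mul_of_nonneg_right (le_abs_self Cf) dist_nonneg
  have e : (fun Γ : LoopColl => min 1 (t * NO801.Sf f Γ)) = fun Γ => min 1 (t * sumI f Γ) := by
    funext Γ
    rw [sf_eq hη h0]
  rw [e]
  exact continuous_const.min (continuous_const.mul (sumI_continuous hfc hη h0))

end Vale.Agent.P155.V743
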