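import Vale.Agent.P155.V743.XB3
import Vale.Agent.P155.E.Point

/-!
# P155: large loops of a sequence of lattice domains, from convergence in law to nested CLE₄
-/

namespace Vale.Agent.P155.V743

open Topology Filter MeasureTheory Vale.Agent.P155 Vale.Agent.P155.Q1

/-- the double-dimer loops of the lattice domains `T n` (mesh `δ n`, origin `a n`) converge in law
to `μ` -/
def ConvSeq (T : ℕ → Temp) (δ : ℕ → ℝ) (a : ℕ → ℂ) (μ : Measure LoopColl) : Prop :=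
  ∀ F : LoopColl → ℝ, Continuous F → (∃ C, ∀ Γ, |F Γ| ≤ C) →
    Tendsto (fun n => Ex (T n).V (fun ω => F (LL (δ n) (a n) ω))) atTop (𝓝 (∫ Γ, F Γ ∂μ))

variable {Ω : Set ℂ} {μ : Measure LoopColl}

theorem conv_norm (S : Approx Ω)
    (hc : ∀ F : LoopColl → ℝ, Continuous F → (∃ C, ∀ Γ, |F Γ| ≤ C) →
      Tendsto (fun n => Ex (S.T n).V (fun ω => F (LL (S.δ n) (S.a n) ω))) atTop
        (𝓝 (∫ Γ, F Γ ∂μ))) : ConvSeq S.norm.T S.norm.δ S.norm.a μ := by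
  intro F hF hFb
  have h := hc F hF hFb
  simpa only [S.Ex_norm] using h

/-- **no large loop comes near a point outside the domain** -/
theorem meet_seq {T : ℕ → Temp} {δ : ℕ → ℝ} {a : ℕ → ℂ} (hμ : IsNestedCLE4 Ω μ)
    (hc : ConvSeq T δ a μ) {z : ℂ} {ρ m : ℝ} (hρ : 0 < ρ) (hm : 0 < m)
    (hz : ∀ w ∈ Ω, 2 * ρ ≤ dist w z) :
    Tendsto (fun n => Pr (T n).V (fun ω => ∃ L ∈ Loops ω,
      m ≤ (loopOf (δ n) (a n) ω L).diam ∧ NO801.nr z (loopOf (δ n) (a n) ω L) ≤ ρ)) atTop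
      (𝓝 0) := by
  obtain ⟨F, hFc, hF01, hF1, hF0⟩ := exists_meet z hρ hm
  have h := hc F hFc ⟨1, fun Γ => abs_le.2 ⟨by linarith [(hF01 Γ).1], (hF01 Γ).2⟩⟩
  rw [near_ae hμ hFc hz hF0] at h
  refine squeeze_zero (fun n => E.Pr_nonneg _ _) (fun n => ?_) h
  refine Pr_le_Ex (fun ω _ => (hF01 _).1) fun ω hω hL => ?_
  obtain ⟨L, hL, h1, h2⟩ := hL
  rw [← near_eq] at h2
  exact hF1 _ ⟨_, LL_ne (Vale.Agent.P155.L.loops_finite hω) hL (hm.trans_le h1), h1, h2⟩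

/-- **the number of large loops is bounded in probability** -/
theorem count_seq {T : ℕ → Temp} {δ : ℕ → ℝ} {a : ℕ → ℂ} (hμ : IsNestedCLE4 Ω μ)
    (hc : ConvSeq T δ a μ) {m η : ℝ} (hm : 0 < m) (hη : 0 < η) :
    ∃ k : ℕ, ∀ᶠ n in atTop, Pr (T n).V (fun ω => ∃ s : Finset (Set Pt), k ≤ s.card ∧
      ∀ L ∈ s, L ∈ Loops ω ∧ m ≤ (loopOf (δ n) (a n) ω L).diam) ≤ η := by
  have := prob_of_cle hμ
  obtain ⟨k, F, hFc, hF01, hF1, hFη⟩ := exists_count hm μ hη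
  have h := hc F hFc ⟨1, fun Γ => abs_le.2 ⟨by linarith [(hF01 Γ).1], (hF01 Γ).2⟩⟩
  refine ⟨k, ?_⟩
  filter_upwards [(tendsto_order.1 h).2 η hFη] with n hn
  refine (Pr_le_Ex (fun ω _ => (hF01 _).1) fun ω hω hs => ?_).trans hn.le
  obtain ⟨s, h1, h2⟩ := hs
  obtain ⟨t, h3, h4⟩ := LL_count (Vale.Agent.P155.L.loops_finite hω) hm s h2
  exact hF1 _ t h4 (h1.trans h3)

/-- the bad event in terms of the curves -/
theorem bad_imp {V : Finset Pt} {δ : ℝ} {a : ℂ} {ω : Conf} (hδ : 0 < δ) (hω : ω ∈ DD V)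
    (hCX : NO801.CX V δ a ω) {k m e : ℕ} {x : Pt} {z : ℂ} {ρ : ℝ}
    (hpos : ∀ v : Pt, dn x v ≤ m + 2 → dist (Q1.pt δ a v) z ≤ ρ)
    (hbad : ¬ NO801.GoodX k x m e ω) :
    (∃ L ∈ Loops ω, δ * (e + 1) ≤ (loopOf δ a ω L).diam ∧ NO801.nr z (loopOf δ a ω L) ≤ ρ) ∨
    ∃ s : Finset (Set Pt), k ≤ s.card ∧
      ∀ L ∈ s, L ∈ Loops ω ∧ δ * (2 * m) ≤ (loopOf δ a ω L).diam := by
  by_cases h : ∀ L ∈ Loops ω, NO801.Cuts ω L x m → ∀ v ∈ L, ∀ w ∈ L, dn v w ≤ e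
  · right
    have h2 : k ≤ Set.ncard {L | L ∈ Loops ω ∧ ∀ y ∈ box x m, surr ω L y} := by
      by_contra hc
      exact hbad ⟨h, not_le.1 hc⟩
    have hfin : {L | L ∈ Loops ω ∧ ∀ y ∈ box x m, surr ω L y}.Finite :=
      (Vale.Agent.P155.L.loops_finite hω).subset fun _ hL => hL.1
    refine ⟨hfin.toFinset, ?_, ?_⟩
    · rwa [← Set.ncard_eq_toFinset_card _ hfin]
    · intro L hL
      rw [Set.Finite.mem_toFinset] at hL
      refine ⟨hL.1, ?_⟩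
      obtain ⟨v, hv, w, hw, hvw⟩ := hCX.surr x m L hL.1 hL.2
      refine le_trans ?_ (hCX.diam L hL.1 v hv w hw)
      refine mul_le_mul_of_nonneg_left ?_ hδ.le
      exact_mod_cast hvw
  · left
    push Not at h
    obtain ⟨L, hL, hcut, v, hv, w, hw, hvw⟩ := h
    refine ⟨L, hL, ?_, ?_⟩
    · refine le_trans ?_ (hCX.diam L hL v hv w hw)
      refine mul_le_mul_of_nonneg_left ?_ hδ.le
      exact_mod_cast hvw
    · obtain ⟨v0, hv0, hd⟩ := hCX.cut x m L hL hcut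
      exact (hCX.nr z L hL v0 hv0).trans (hpos v0 (by omega))

/-- **(E)**, from the geometric block, the translation and the discrete estimate -/
theorem ex0_of (hA : NO801.AX) (hC : NO801.CP) (hD : NO801.D4) : NO801.EX0 := by
  intro Ω ho hb hne μ _ hμ S hconv
  by_contra hno
  obtain ⟨z0, ρ, κ, hρ, hκ, hκ1, hfar, x, m, R, hR, hfreq⟩ := hA Ω ho hb hne S hno
  have hc := conv_norm S hconv
  obtain ⟨c1, hc1, hD⟩ := hD κ hκ hκ1
  -- the number of large loops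
  have hm0 : 0 < ρ * κ := mul_pos hρ hκ
  obtain ⟨k, hk⟩ := count_seq hμ hc (m := 2 * (ρ * κ)) (η := c1 / 4) (by positivity)
    (by positivity)
  obtain ⟨ε, hε, R0, hD⟩ := hD k
  -- large loops near `z0`
  have hmeet := meet_seq hμ hc (z := z0) (ρ := ρ) (m := ε * (ρ * κ)) hρ (by positivity)
    (fun w hw => by linarith [hfar w hw])
  have hmeet' := (tendsto_order.1 hmeet).2 (c1 / 4) (by positivity)
  obtain ⟨n, ⟨hfit, h1, h2, h3, h4⟩, g1, g2, g3, g4⟩ := (hfreq.and_eventually (hk.and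
    (hmeet'.and ((hR.eventually_ge_atTop R0).and (hR.eventually_ge_atTop 1))))).exists
  clear hfreq hmeet hmeet' hk
  have hδ : 0 < S.norm.δ n := S.norm.pos n
  have hRm : m n ≤ R n := by
    have h5 := E.dF_le_of_fits hfit (x n)
    omega
  have hδR : ρ * κ ≤ S.norm.δ n * R n :=
    h3.trans (mul_le_mul_of_nonneg_left (by exact_mod_cast hRm) hδ.le)
  obtain ⟨e, he⟩ : ∃ e : ℕ, e = ⌊ε * R n⌋₊ := ⟨_, rfl⟩
  have he1 : (e : ℝ) ≤ ε * R n := by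
    rw [he]
    exact Nat.floor_le (by positivity)
  have he2 : ε * R n ≤ (e : ℝ) + 1 := by
    rw [he]
    exact (Nat.lt_floor_add_one _).le
  have key := hD (R n) g3 (S.norm.T n) hfit (x n) (m n) e h1 h2 he1
  have hle : Pr (S.norm.T n).V (fun ω => ¬ NO801.GoodX k (x n) (m n) e ω) ≤
      Pr (S.norm.T n).V (fun ω => ∃ L ∈ Loops ω,
        ε * (ρ * κ) ≤ (loopOf (S.norm.δ n) (S.norm.a n) ω L).diam ∧
          NO801.nr z0 (loopOf (S.norm.δ n) (S.norm.a n) ω L) ≤ ρ) +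
      Pr (S.norm.T n).V (fun ω => ∃ s : Finset (Set Pt), k ≤ s.card ∧
        ∀ L ∈ s, L ∈ Loops ω ∧ 2 * (ρ * κ) ≤ (loopOf (S.norm.δ n) (S.norm.a n) ω L).diam) := by
    refine le_trans (E.Pr_mono fun ω hω hbad => ?_) (E.Pr_or_le _ _ _)
    rcases bad_imp hδ hω (hC _ _ (S.norm.a n) hδ ω hω) h4 hbad with ⟨L, hL, a1, a2⟩ | ⟨s, b1, b2⟩
    · left
      refine ⟨L, hL, le_trans ?_ a1, a2⟩
      calc ε * (ρ * κ) ≤ ε * (S.norm.δ n * R n) := mul_le_mul_of_nonneg_left hδR hε.le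
        _ = S.norm.δ n * (ε * R n) := by ring
        _ ≤ _ := mul_le_mul_of_nonneg_left he2 hδ.le
    · right
      refine ⟨s, b1, fun L hL => ⟨(b2 L hL).1, le_trans ?_ (b2 L hL).2⟩⟩
      linarith
  linarith

end Vale.Agent.P155.V743
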